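import Vale.Agent.P340.T.ModelI

/-!
# P340, tiered systems: strong normalization when no level carries a copy of U-minus
-/

namespace Vale.Agent.P340

open Tm

universe u

namespace Tier

/-- The four rules of U-minus at the levels `j`, `j + 1`, `j + 2`. -/
def Pattern (R : ℕ → ℕ → Prop) (j : ℕ) : Prop :=
  R j j ∧ R (j + 1) j ∧ R (j + 1) (j + 1) ∧ R (j + 2) (j + 1)

theorem good (Y : Sys) (hp : ∀ j, ¬ Pattern Y.R j) :
    ∀ (d k : ℕ), Y.K + 1 < k + d → ∀ Γ M A, Y.T Γ M A → lev (lv Y Γ) M = k →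
      SN M ∧ SN (sk k (lv Y Γ) M) := by
  intro d
  induction d with
  | zero =>
    intro k hk Γ M A h hl
    have := lev_le h
    omega
  | succ d ih =>
    intro k hk
    have ab : Above Y k := fun j hj => ih j (by omega)
    intro Γ M A h hl
    by_cases h1 : Y.R k k
    · by_cases h2 : Y.R (k + 1) k
      · by_cases h3 : Y.R (k + 1) (k + 1)
        · have h4 : ¬ Y.R (k + 2) (k + 1) := fun h4 => hp k ⟨h1, h2, h3, h4⟩
          exact (model1 ab h4).good ab h hl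
        · exact (model2 h3).good ab h hl
      · exact (model3 ab h2).good ab h hl
    · exact (modelTriv h1).good ab h hl

theorem chain_sn {R : ℕ → ℕ → Prop} (nd : ∀ i j, R i j → j ≤ i) (hp : ∀ j, ¬ Pattern R j)
    {K : ℕ} {Γ : List (Tm ℕ)} {M A : Tm ℕ} (h : Derives (chain R K) Γ M A) : SN M ∧ SN A := by
  obtain ⟨Y, rfl, rfl⟩ := exists_sys R nd K
  have hH : Y.T Γ M A := h.toH _
  have sn : ∀ {N B : Tm ℕ}, Y.T Γ N B → SN N := fun {N B} hN =>
    (good Y hp (Y.K + 2) _ (by omega) Γ N B hN rfl).1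
  refine ⟨sn hH, ?_⟩
  rcases hH.correct with ⟨s, rfl⟩ | ⟨s, hs⟩
  · exact .normal (normal_sort s)
  · exact sn hs

theorem sn_not_infinite {S : Type u} {M : Tm S} (h : Acc (fun a b => Step b a) M) :
    ¬ ∃ f : ℕ → Tm S, f 0 = M ∧ ∀ n, Step (f n) (f (n + 1)) := by
  induction h with
  | intro M _ ih =>
    rintro ⟨f, rfl, hf⟩
    exact ih (f 1) (hf 0) ⟨fun n => f (n + 1), rfl, fun n => hf (n + 1)⟩

/-- The pairs of levels of the rules. -/
def levelRules {S : Type u} (P : Spec S) (ℓ : S → ℕ) (i j : ℕ) : Prop :=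
  ∃ r s t, (r, s, t) ∈ P.rule ∧ ℓ r = i ∧ ℓ s = j

/-- Strong normalization of graded nondependent specifications without a copy of U-minus. -/
theorem graded_sn {S : Type u} (P : Spec S) (ℓ : S → ℕ)
    (hax : ∀ s t, (s, t) ∈ P.ax → ℓ t = ℓ s + 1)
    (hrule : ∀ r s t, (r, s, t) ∈ P.rule → ℓ t = ℓ s ∧ ℓ s ≤ ℓ r)
    (hp : ∀ j, ¬ Pattern (levelRules P ℓ) j) : P.StronglyNormalizing := by
  intro M hM hinf
  obtain ⟨Γ, N, hMN⟩ := hM
  obtain ⟨f, hf0, hf⟩ := hinf
  have nd : ∀ i j, levelRules P ℓ i j → j ≤ i := by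
    rintro i j ⟨r, s, t, h, rfl, rfl⟩; exact (hrule r s t h).2
  have key : ∀ {M A : Tm S}, Derives P Γ M A → SN (M.map ℓ) ∧ SN (A.map ℓ) := by
    intro M A h
    obtain ⟨a, r, ha, -, sa, sr, hd⟩ := h.exists_finite
    obtain ⟨K, hK⟩ := ((ha.image fun p => ℓ p.2).bddAbove)
    refine chain_sn nd hp (K := K) ((hd.map ℓ).mono ?_ ?_)
    · rintro _ ⟨⟨s, t⟩, hp, rfl⟩
      exact ⟨hax s t (sa hp), hK ⟨(s, t), hp, rfl⟩⟩
    · rintro _ ⟨⟨x, y, z⟩, hp, rfl⟩
      exact ⟨⟨x, y, z, sr hp, rfl, rfl⟩, (hrule x y z (sr hp)).1⟩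
  have hs : SN (M.map ℓ) := hMN.elim (fun h => (key h).1) fun h => (key h).2
  exact sn_not_infinite hs ⟨fun n => (f n).map ℓ, congrArg (Tm.map ℓ) hf0, fun n => (hf n).map ℓ⟩

theorem sn_weakly {S : Type u} {P : Spec S} (h : P.StronglyNormalizing) :
    P.WeaklyNormalizing := by
  intro M hM
  by_contra hn
  push Not at hn
  refine h M hM ?_
  have step : ∀ N : {N // Relation.ReflTransGen Step M N},
      ∃ N' : {N // Relation.ReflTransGen Step M N}, Step N.1 N'.1 := by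
    rintro ⟨N, hN⟩
    have := hn N hN
    simp only [Tm.Normal, not_forall, not_not] at this
    obtain ⟨N', hN'⟩ := this
    exact ⟨⟨N', hN.tail hN'⟩, hN'⟩
  choose g hg using step
  exact ⟨fun n => (g^[n] ⟨M, .refl⟩).1, rfl, fun n => by
    simp only [Function.iterate_succ_apply']; exact hg _⟩

end Tier

end Vale.Agent.P340
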