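import Vale.Agent.P340.T.Confl

/-!
# P340, tiered systems: a sound checker for typing judgments and Hurkens's term

The checker is only used to obtain one derivation, by kernel computation.
-/

namespace Vale.Agent.P340

open Tm

namespace Tier

/-- Equality of expressions, as a test. -/
def same : Tm ℕ → Tm ℕ → Bool
  | .var i, .var j => i == j
  | .sort i, .sort j => i == j
  | .app f a, .app g b => same f g && same a b
  | .lam f a, .lam g b => same f g && same a b
  | .pi f a, .pi g b => same f g && same a b
  | _, _ => false

theorem same_eq : ∀ {M N : Tm ℕ}, same M N = true → M = N := by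
  intro M
  induction M with
  | var i => intro N h; cases N <;> simp_all [same]
  | sort i => intro N h; cases N <;> simp_all [same]
  | app f a i1 i2 =>
    intro N h; cases N <;> simp [same] at h ⊢
    exact ⟨i1 h.1, i2 h.2⟩
  | lam f a i1 i2 =>
    intro N h; cases N <;> simp [same] at h ⊢
    exact ⟨i1 h.1, i2 h.2⟩
  | pi f a i1 i2 =>
    intro N h; cases N <;> simp [same] at h ⊢
    exact ⟨i1 h.1, i2 h.2⟩

/-- Reduction with fuel. -/
def reduce : ℕ → Tm ℕ → Tm ℕ
  | 0, M => M
  | n + 1, .app f a =>
    match reduce n f with
    | .lam _ M => reduce n (M.subst 0 a)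
    | f' => .app f' (reduce n a)
  | n + 1, .lam A M => .lam (reduce n A) (reduce n M)
  | n + 1, .pi A M => .pi (reduce n A) (reduce n M)
  | _ + 1, M => M

theorem reduce_red : ∀ (n : ℕ) (M : Tm ℕ), Red M (reduce n M)
  | 0, _ => .refl
  | n + 1, .var _ => .refl
  | n + 1, .sort _ => .refl
  | n + 1, .lam A M => Red.lam (reduce_red n A) (reduce_red n M)
  | n + 1, .pi A M => Red.pi (reduce_red n A) (reduce_red n M)
  | n + 1, .app f a => by
    have hf := reduce_red n f
    simp only [reduce]
    split
    · rename_i A M he
      rw [he] at hf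
      exact ((Red.app hf .refl).tail (.beta A M a)).trans (reduce_red n _)
    · exact Red.app hf (reduce_red n a)

theorem betaEq_red {M N : Tm ℕ} (h : Red M N) : BetaEq M N := (Conv.of_red h).betaEq

/-- The type of a variable. -/
def look : List (Tm ℕ) → ℕ → Option (Tm ℕ)
  | [], _ => none
  | A :: _, 0 => some (A.lift 0)
  | _ :: Γ, k + 1 => (look Γ k).map fun T => T.lift 0

/-- A sort, if there is one. -/
def toSort : Tm ℕ → Option ℕ
  | .sort s => some s
  | _ => none

/-- A product, if there is one. -/
def toPi : Tm ℕ → Option (Tm ℕ × Tm ℕ)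
  | .pi A B => some (A, B)
  | _ => none

/-- The four rules of U-minus. -/
def uRule (r s : ℕ) : Bool :=
  (r == 0 && s == 0) || (r == 1 && s == 0) || (r == 1 && s == 1) || (r == 2 && s == 1)

/-- U-minus. -/
def uSpec : Spec ℕ where
  ax := {p | p.1 < 2 ∧ p.2 = p.1 + 1}
  rule := {p | uRule p.1 p.2.1 = true ∧ p.2.2 = p.2.1}

/-- Infer a type. -/
def infer : ℕ → List (Tm ℕ) → Tm ℕ → Option (Tm ℕ)
  | 0, _, _ => none
  | _ + 1, Γ, .var k => look Γ k
  | _ + 1, _, .sort s => if s < 2 then some (.sort (s + 1)) else none
  | n + 1, Γ, .pi A B =>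
    ((infer n Γ A).bind toSort).bind fun r =>
      ((infer n (A :: Γ) B).bind toSort).bind fun s =>
        if uRule r s then some (.sort s) else none
  | n + 1, Γ, .lam A M =>
    ((infer n Γ A).bind toSort).bind fun _ =>
      (infer n (A :: Γ) M).bind fun B =>
        ((infer n Γ (.pi A B)).bind toSort).map fun _ => .pi A B
  | n + 1, Γ, .app f a =>
    (infer n Γ f).bind fun F => (toPi (reduce n F)).bind fun p =>
      ((infer n Γ (.pi p.1 p.2)).bind toSort).bind fun _ =>
        ((infer n Γ p.1).bind toSort).bind fun _ =>
          (infer n Γ a).bind fun A =>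
            if same (reduce n A) (reduce n p.1) then some (p.2.subst 0 a) else none

/-- Contexts of types. -/
inductive UWf : List (Tm ℕ) → Prop
  | nil : UWf []
  | cons {Γ : List (Tm ℕ)} {A : Tm ℕ} {s : ℕ} : UWf Γ → Derives uSpec Γ A (.sort s) →
      UWf (A :: Γ)

theorem look_sound {Γ : List (Tm ℕ)} (h : UWf Γ) : ∀ {k : ℕ} {T : Tm ℕ},
    look Γ k = some T → Derives uSpec Γ (.var k) T := by
  induction h with
  | nil => intro k T e; cases e
  | @cons Γ A s _ hA ih =>
    intro k T e
    cases k with
    | zero => simp only [look, Option.some.injEq] at e; exact e ▸ .variable' hA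
    | succ k =>
      simp only [look, Option.map_eq_some_iff] at e
      obtain ⟨U, hU, rfl⟩ := e
      have := Derives.weakening (ih hU) hA
      simpa [Tm.lift] using this

theorem sort_sound {Γ : List (Tm ℕ)} (h : UWf Γ) {s : ℕ} (hs : s < 2) :
    Derives uSpec Γ (.sort s) (.sort (s + 1)) := by
  induction h with
  | nil => exact .ax' ⟨hs, rfl⟩
  | cons _ hA ih => exact .weakening ih hA

theorem toSort_eq {M : Tm ℕ} {s : ℕ} (h : toSort M = some s) : M = .sort s := by
  cases M <;> simp_all [toSort]

theorem bind_toSort {o : Option (Tm ℕ)} {s : ℕ} (h : o.bind toSort = some s) :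
    o = some (.sort s) := by
  cases o with
  | none => simp at h
  | some M => simp only [Option.bind_some] at h; rw [toSort_eq h]

theorem infer_sound : ∀ (n : ℕ) {Γ : List (Tm ℕ)} {M T : Tm ℕ}, UWf Γ →
    infer n Γ M = some T → Derives uSpec Γ M T := by
  intro n
  induction n with
  | zero => intro Γ M T _ h; simp [infer] at h
  | succ n ih =>
    intro Γ M T hw h
    cases M with
    | var k => exact look_sound hw h
    | sort s =>
      simp only [infer] at h
      split at h
      · cases h; exact sort_sound hw ‹_›
      · cases h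
    | pi A B =>
      simp only [infer, Option.bind_eq_some_iff] at h
      obtain ⟨r, hr, s, hs, h⟩ := h
      have hA := ih hw (bind_toSort (by simpa [Option.bind_eq_some_iff] using hr))
      have hB := ih (hw.cons hA) (bind_toSort (by simpa [Option.bind_eq_some_iff] using hs))
      split at h
      · cases h; exact .product hA hB ⟨‹_›, rfl⟩
      · cases h
    | lam A M =>
      simp only [infer, Option.bind_eq_some_iff, Option.map_eq_some_iff] at h
      obtain ⟨r, hr, B, hB, s, hs, rfl⟩ := h
      have hA := ih hw (bind_toSort (by simpa [Option.bind_eq_some_iff] using hr))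
      exact .abstraction (ih (hw.cons hA) hB)
        (ih hw (bind_toSort (by simpa [Option.bind_eq_some_iff] using hs)))
    | app f a =>
      simp only [infer, Option.bind_eq_some_iff] at h
      obtain ⟨F, hF, p, hp, s, hs, r, hr, A, hA, h⟩ := h
      have hpi := ih hw (bind_toSort (by simpa [Option.bind_eq_some_iff] using hs))
      have hdom := ih hw (bind_toSort (by simpa [Option.bind_eq_some_iff] using hr))
      split at h
      · cases h
        have e : reduce n F = .pi p.1 p.2 := by
          generalize reduce n F = X at hp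
          cases X <;> simp [toPi] at hp
          subst hp; rfl
        refine .application (.conversion (ih hw hF) hpi (betaEq_red (e ▸ reduce_red n F))) ?_
        refine .conversion (ih hw hA) hdom ?_
        have e2 := same_eq ‹_›
        exact .trans _ _ _ (betaEq_red (reduce_red n A))
          (.symm _ _ (betaEq_red (e2 ▸ reduce_red n p.1)))
      · cases h

/-- A nondependent product. -/
def arr (A B : Tm ℕ) : Tm ℕ := .pi A (B.lift 0)

/-- Predicates on a type. -/
def pw (A : Tm ℕ) : Tm ℕ := arr A (.sort 0)

/-- The universe of Hurkens. -/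
def hU : Tm ℕ := .pi (.sort 1) (arr (arr (pw (pw (.var 0))) (.var 0)) (pw (pw (.var 0))))

/-- The map from sets of sets to the universe. -/
def hTau (t : Tm ℕ) : Tm ℕ :=
  .lam (.sort 1) (.lam (arr (pw (pw (.var 0))) (.var 0)) (.lam (pw (.var 1))
    (.app (((t.lift 0).lift 0).lift 0)
      (.lam hU (.app (.var 1) (.app (.var 2) (.app (.app (.var 0) (.var 3)) (.var 2))))))))

/-- The map from the universe to sets of sets. -/
def hSig (s : Tm ℕ) : Tm ℕ := .app (.app s hU) (.lam (pw (pw hU)) (hTau (.var 0)))

/-- The set of elements not preceded by themselves. -/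
def hDel (d : ℕ) : Tm ℕ :=
  .lam hU (arr (.pi (pw hU) (arr (.app (hSig (.var 1)) (.var 0))
    (.app (.var 0) (hTau (hSig (.var 1)))))) (.var (d + 1)))

/-- The inductive predicates, as a type. -/
def hInd : Tm ℕ := .pi hU (arr (.app (hSig (.var 0)) (.var 1)) (.app (.var 1) (.var 0)))

/-- The paradoxical element. -/
def hOmega : Tm ℕ := hTau (.lam (pw hU) hInd)

/-- The statement that the paradoxical element is well founded. -/
def hW : Tm ℕ := .pi (pw hU) (arr hInd (.app (.var 0) hOmega))

/-- Hurkens's term, in the context of one proposition variable, of that type. -/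
def paradox : Tm ℕ :=
  .app
    (.lam hW (.app (.app (.app (.var 0) (hDel 1))
      (.lam hU (.lam (.app (hSig (.var 0)) (hDel 2))
        (.lam (.pi (pw hU) (arr (.app (hSig (.var 2)) (.var 0))
            (.app (.var 0) (hTau (hSig (.var 2))))))
          (.app (.app (.app (.var 0) (hDel 4)) (.var 1))
            (.lam (pw hU) (.app (.var 1) (.lam hU (.app (.var 1) (hTau (hSig (.var 0))))))))))))
      (.lam (pw hU) (.app (.var 1) (.lam hU (.app (.var 1) (hTau (hSig (.var 0)))))))))
    (.lam (pw hU) (.lam hInd (.app (.app (.var 0) hOmega)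
      (.lam hU (.app (.var 1) (hTau (hSig (.var 0))))))))

/-- The test that the paradox proves the variable. -/
def paradoxOk : Bool :=
  match infer 80 [.sort 0] paradox with
  | some T => same (reduce 80 T) (.var 0)
  | none => false

end Tier

end Vale.Agent.P340
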