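import Vale.Agent.P340.T.Sub

/-!
# P340, tiered systems: confluence of beta
-/

namespace Vale.Agent.P340

universe u

variable {S : Type u}

namespace Tm

/-- Many steps. -/
abbrev Red : Tm S → Tm S → Prop := Relation.ReflTransGen Step

theorem beta_sub (A M N : Tm S) : Step (app (lam A M) N) (M.sub (one N)) :=
  subst_zero M N ▸ Step.beta A M N

theorem Step.ren {M N : Tm S} (h : Step M N) : ∀ r, Step (M.ren r) (N.ren r) := by
  induction h with
  | beta A M N =>
    intro r; rw [subst_zero, ren_one_comp]; exact beta_sub _ _ _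
  | appL a _ ih => exact fun r => .appL _ (ih r)
  | appR f _ ih => exact fun r => .appR _ (ih r)
  | lamL M _ ih => exact fun r => .lamL _ (ih r)
  | lamR A _ ih => exact fun r => .lamR _ (ih _)
  | piL B _ ih => exact fun r => .piL _ (ih r)
  | piR A _ ih => exact fun r => .piR _ (ih _)

theorem Step.sub {M N : Tm S} (h : Step M N) : ∀ σ, Step (M.sub σ) (N.sub σ) := by
  induction h with
  | beta A M N =>
    intro σ; rw [subst_zero, sub_one_comp]; exact beta_sub _ _ _
  | appL a _ ih => exact fun r => .appL _ (ih r)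
  | appR f _ ih => exact fun r => .appR _ (ih r)
  | lamL M _ ih => exact fun r => .lamL _ (ih r)
  | lamR A _ ih => exact fun r => .lamR _ (ih _)
  | piL B _ ih => exact fun r => .piL _ (ih r)
  | piR A _ ih => exact fun r => .piR _ (ih _)

theorem Red.app {f f' a a' : Tm S} (h1 : Red f f') (h2 : Red a a') :
    Red (app f a) (app f' a') :=
  (h1.lift (Tm.app · a) fun _ _ h => .appL a h).trans (h2.lift (Tm.app f') fun _ _ h => .appR f' h)

theorem Red.lam {A A' M M' : Tm S} (h1 : Red A A') (h2 : Red M M') :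
    Red (lam A M) (lam A' M') :=
  (h1.lift (Tm.lam · M) fun _ _ h => .lamL M h).trans (h2.lift (Tm.lam A') fun _ _ h => .lamR A' h)

theorem Red.pi {A A' M M' : Tm S} (h1 : Red A A') (h2 : Red M M') :
    Red (pi A M) (pi A' M') :=
  (h1.lift (Tm.pi · M) fun _ _ h => .piL M h).trans (h2.lift (Tm.pi A') fun _ _ h => .piR A' h)

theorem Red.sub {M N : Tm S} (h : Red M N) (σ : ℕ → Tm S) : Red (M.sub σ) (N.sub σ) :=
  h.lift (fun x => x.sub σ) fun _ _ h => h.sub σ

/-- Parallel reduction. -/
inductive Par : Tm S → Tm S → Prop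
  | var (k : ℕ) : Par (var k) (var k)
  | sort (s : S) : Par (sort s) (sort s)
  | app {f f' a a' : Tm S} : Par f f' → Par a a' → Par (app f a) (app f' a')
  | lam {A A' M M' : Tm S} : Par A A' → Par M M' → Par (lam A M) (lam A' M')
  | pi {A A' B B' : Tm S} : Par A A' → Par B B' → Par (pi A B) (pi A' B')
  | beta {A M M' N N' : Tm S} : Par M M' → Par N N' → Par (app (lam A M) N) (M'.sub (one N'))

theorem Par.rfl' : ∀ {M : Tm S}, Par M M
  | .var k => .var k
  | .sort s => .sort s
  | .app _ _ => .app Par.rfl' Par.rfl'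
  | .lam _ _ => .lam Par.rfl' Par.rfl'
  | .pi _ _ => .pi Par.rfl' Par.rfl'

theorem Step.par {M N : Tm S} (h : Step M N) : Par M N := by
  induction h with
  | beta A M N => rw [subst_zero]; exact .beta .rfl' .rfl'
  | appL a _ ih => exact .app ih .rfl'
  | appR f _ ih => exact .app .rfl' ih
  | lamL M _ ih => exact .lam ih .rfl'
  | lamR A _ ih => exact .lam .rfl' ih
  | piL B _ ih => exact .pi ih .rfl'
  | piR A _ ih => exact .pi .rfl' ih

theorem Par.red {M N : Tm S} (h : Par M N) : Red M N := by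
  induction h with
  | var k => exact .refl
  | sort s => exact .refl
  | app _ _ i1 i2 => exact Red.app i1 i2
  | lam _ _ i1 i2 => exact Red.lam i1 i2
  | pi _ _ i1 i2 => exact Red.pi i1 i2
  | beta _ _ i1 i2 => exact (Red.app (Red.lam .refl i1) i2).tail (beta_sub _ _ _)

theorem Par.ren {M N : Tm S} (h : Par M N) : ∀ r, Par (M.ren r) (N.ren r) := by
  induction h with
  | var k => exact fun r => .var _
  | sort s => exact fun r => .sort s
  | app _ _ i1 i2 => exact fun r => .app (i1 r) (i2 r)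
  | lam _ _ i1 i2 => exact fun r => .lam (i1 r) (i2 _)
  | pi _ _ i1 i2 => exact fun r => .pi (i1 r) (i2 _)
  | beta _ _ i1 i2 => intro r; rw [ren_one_comp]; exact .beta (i1 _) (i2 r)

theorem Par.sub {M N : Tm S} (h : Par M N) :
    ∀ σ τ : ℕ → Tm S, (∀ n, Par (σ n) (τ n)) → Par (M.sub σ) (N.sub τ) := by
  have hup : ∀ {σ τ : ℕ → Tm S}, (∀ n, Par (σ n) (τ n)) → ∀ n, Par (up σ n) (up τ n) := by
    intro σ τ h n; cases n with
    | zero => exact .var 0
    | succ n => exact (h n).ren _
  induction h with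
  | var k => exact fun σ τ hh => hh k
  | sort s => exact fun σ τ hh => .sort s
  | app _ _ i1 i2 => exact fun σ τ hh => .app (i1 σ τ hh) (i2 σ τ hh)
  | lam _ _ i1 i2 => exact fun σ τ hh => .lam (i1 σ τ hh) (i2 _ _ (hup hh))
  | pi _ _ i1 i2 => exact fun σ τ hh => .pi (i1 σ τ hh) (i2 _ _ (hup hh))
  | beta _ _ i1 i2 =>
    intro σ τ hh; rw [sub_one_comp]; exact .beta (i1 _ _ (hup hh)) (i2 σ τ hh)

/-- The body of an abstraction. -/
def body : Tm S → Option (Tm S)
  | lam _ M => some M
  | _ => none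

/-- The complete development. -/
def dev : Tm S → Tm S
  | var k => var k
  | sort s => sort s
  | app f a =>
    match body f, body (dev f) with
    | some _, some M => M.sub (one (dev a))
    | _, _ => app (dev f) (dev a)
  | lam A M => lam (dev A) (dev M)
  | pi A B => pi (dev A) (dev B)

theorem Par.triangle {M N : Tm S} (h : Par M N) : Par N (dev M) := by
  induction h with
  | var k => exact .var k
  | sort s => exact .sort s
  | lam _ _ i1 i2 => exact .lam i1 i2
  | pi _ _ i1 i2 => exact .pi i1 i2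
  | @app f f' a a' hf _ i1 i2 =>
    cases f with
    | lam A M =>
      cases hf with
      | lam _ _ => cases i1 with
        | lam _ h2 => exact .beta h2 i2
    | var k => exact .app i1 i2
    | sort s => exact .app i1 i2
    | app g b => exact .app i1 i2
    | pi A B => exact .app i1 i2
  | beta _ _ i1 i2 =>
    simp only [dev, body]
    exact i1.sub _ _ fun n => by
      cases n with
      | zero => exact i2
      | succ n => exact .var n

/-- Having a common reduct. -/
def Conv (M N : Tm S) : Prop := Relation.Join Red M N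

theorem red_join {a b c : Tm S} (h1 : Red a b) (h2 : Red a c) : Conv b c := by
  have hp : ∀ {x y : Tm S}, Red x y → Relation.ReflTransGen Par x y :=
    fun h => by
      induction h with
      | refl => exact .refl
      | tail _ h ih => exact ih.tail h.par
  have hr : ∀ {x y : Tm S}, Relation.ReflTransGen Par x y → Red x y := fun h => by
    induction h with
    | refl => exact .refl
    | tail _ h ih => exact ih.trans h.red
  obtain ⟨d, hb, hc⟩ := Relation.church_rosser
    (fun a b c hab hac => ⟨dev a, .single hab.triangle, .single hac.triangle⟩) (hp h1) (hp h2)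
  exact ⟨d, hr hb, hr hc⟩

theorem Conv.rfl' {M : Tm S} : Conv M M := ⟨M, .refl, .refl⟩

theorem Conv.of_red {M N : Tm S} (h : Red M N) : Conv M N := ⟨N, h, .refl⟩

theorem Conv.symm {M N : Tm S} : Conv M N → Conv N M := fun ⟨d, h1, h2⟩ => ⟨d, h2, h1⟩

theorem Conv.trans {M N K : Tm S} : Conv M N → Conv N K → Conv M K := by
  rintro ⟨d, h1, h2⟩ ⟨e, h3, h4⟩
  obtain ⟨q, hd, he⟩ := red_join h2 h3
  exact ⟨q, h1.trans hd, h4.trans he⟩

theorem BetaEq.conv {M N : Tm S} (h : BetaEq M N) : Conv M N := by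
  induction h with
  | rel a b hab => exact .of_red (.single hab)
  | refl a => exact .rfl'
  | symm a b _ ih => exact ih.symm
  | trans a b c _ _ i1 i2 => exact i1.trans i2

theorem Conv.betaEq {M N : Tm S} : Conv M N → BetaEq M N := by
  have hr : ∀ {x y : Tm S}, Red x y → BetaEq x y := fun h => by
    induction h with
    | refl => exact .refl _
    | tail _ h ih => exact .trans _ _ _ ih (.rel _ _ h)
  rintro ⟨d, h1, h2⟩
  exact .trans _ _ _ (hr h1) (.symm _ _ (hr h2))

theorem Conv.sub {M N : Tm S} : Conv M N → ∀ σ : ℕ → Tm S, Conv (M.sub σ) (N.sub σ) :=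
  fun ⟨d, h1, h2⟩ σ => ⟨d.sub σ, h1.sub σ, h2.sub σ⟩

theorem Conv.ren {M N : Tm S} (h : Conv M N) (r : ℕ → ℕ) : Conv (M.ren r) (N.ren r) := by
  rw [← sub_var_comp, ← sub_var_comp]; exact h.sub _

theorem Conv.pi {A A' B B' : Tm S} : Conv A A' → Conv B B' → Conv (pi A B) (pi A' B') :=
  fun ⟨d, h1, h2⟩ ⟨e, h3, h4⟩ => ⟨.pi d e, Red.pi h1 h3, Red.pi h2 h4⟩

theorem red_sub {M : Tm S} : ∀ {σ τ : ℕ → Tm S}, (∀ n, Red (σ n) (τ n)) →
    Red (M.sub σ) (M.sub τ) := by
  have hup : ∀ {σ τ : ℕ → Tm S}, (∀ n, Red (σ n) (τ n)) → ∀ n, Red (up σ n) (up τ n) := by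
    intro σ τ h n; cases n with
    | zero => exact .refl
    | succ n => exact (h n).lift _ fun _ _ hh => hh.ren _
  induction M with
  | var k => exact fun h => h k
  | sort s => exact fun _ => .refl
  | app f a i1 i2 => exact fun h => Red.app (i1 h) (i2 h)
  | lam A M i1 i2 => exact fun h => Red.lam (i1 h) (i2 (hup h))
  | pi A B i1 i2 => exact fun h => Red.pi (i1 h) (i2 (hup h))

theorem conv_one {a a' : Tm S} (B : Tm S) (h : Red a a') :
    Conv (B.sub (one a)) (B.sub (one a')) :=
  .of_red (red_sub fun n => by cases n with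
    | zero => exact h
    | succ n => exact .refl)

theorem red_var {k : ℕ} {N : Tm S} (h : Red (var k) N) : N = var k := by
  induction h with
  | refl => rfl
  | tail _ h ih => subst ih; cases h

theorem red_sort {s : S} {N : Tm S} (h : Red (sort s) N) : N = sort s := by
  induction h with
  | refl => rfl
  | tail _ h ih => subst ih; cases h

theorem red_pi {A B N : Tm S} (h : Red (pi A B) N) :
    ∃ A' B', N = pi A' B' ∧ Red A A' ∧ Red B B' := by
  induction h with
  | refl => exact ⟨A, B, rfl, .refl, .refl⟩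
  | tail _ h ih =>
    obtain ⟨A', B', rfl, hA, hB⟩ := ih
    cases h with
    | piL _ h => exact ⟨_, _, rfl, hA.tail h, hB⟩
    | piR _ h => exact ⟨_, _, rfl, hA, hB.tail h⟩

theorem conv_pi {A B A' B' : Tm S} (h : Conv (pi A B) (pi A' B')) : Conv A A' ∧ Conv B B' := by
  obtain ⟨d, h1, h2⟩ := h
  obtain ⟨C, D, rfl, hA, hB⟩ := red_pi h1
  obtain ⟨C', D', e, hA', hB'⟩ := red_pi h2
  cases e
  exact ⟨⟨C, hA, hA'⟩, ⟨D, hB, hB'⟩⟩

theorem conv_sort {s t : S} (h : Conv (sort s) (sort t)) : s = t := by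
  obtain ⟨d, h1, h2⟩ := h
  rw [red_sort h1] at h2
  have := red_sort h2
  injection this

theorem not_conv_sort_pi {s : S} {A B : Tm S} : ¬ Conv (sort s) (pi A B) := by
  rintro ⟨d, h1, h2⟩
  obtain ⟨C, D, rfl, -, -⟩ := red_pi h2
  cases red_sort h1

theorem not_conv_var_pi {k : ℕ} {A B : Tm S} : ¬ Conv (var k) (pi A B) := by
  rintro ⟨d, h1, h2⟩
  obtain ⟨C, D, rfl, -, -⟩ := red_pi h2
  cases red_var h1

theorem not_conv_sort_var {s : S} {k : ℕ} : ¬ Conv (sort s) (var k) := by
  rintro ⟨d, h1, h2⟩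
  rw [red_sort h1] at h2
  cases red_var h2

theorem Red.normal {M N : Tm S} (h : Red M N) (hM : M.Normal) : N = M := by
  rcases h.cases_head with e | ⟨c, hc, -⟩
  · exact e.symm
  · exact absurd hc (hM c)

theorem Step.ren_inv : ∀ {M : Tm S} {r : ℕ → ℕ} {N : Tm S}, Step (M.ren r) N →
    ∃ N', Step M N' ∧ N = N'.ren r
  | .var _, _, _, h => by cases h
  | .sort _, _, _, h => by cases h
  | .app f a, r, _, h => by
    generalize he : (Tm.app f a).ren r = X at h
    cases h with
    | beta A M0 a0 =>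
      simp only [Tm.ren, Tm.app.injEq] at he
      obtain ⟨hf, rfl⟩ := he
      cases f with
      | lam A1 M1 =>
        simp only [Tm.ren, Tm.lam.injEq] at hf
        obtain ⟨rfl, rfl⟩ := hf
        exact ⟨_, beta_sub _ _ _, by rw [subst_zero, ren_one_comp]⟩
      | var _ => simp [Tm.ren] at hf
      | sort _ => simp [Tm.ren] at hf
      | app _ _ => simp [Tm.ren] at hf
      | pi _ _ => simp [Tm.ren] at hf
    | appL a0 h1 =>
      simp only [Tm.ren, Tm.app.injEq] at he
      obtain ⟨rfl, rfl⟩ := he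
      obtain ⟨f', hs, rfl⟩ := Step.ren_inv h1
      exact ⟨_, .appL _ hs, rfl⟩
    | appR f0 h1 =>
      simp only [Tm.ren, Tm.app.injEq] at he
      obtain ⟨rfl, rfl⟩ := he
      obtain ⟨a', hs, rfl⟩ := Step.ren_inv h1
      exact ⟨_, .appR _ hs, rfl⟩
    | _ => simp [Tm.ren] at he
  | .lam A M, r, _, h => by
    cases h with
    | lamL _ h1 => obtain ⟨A', hs, rfl⟩ := Step.ren_inv h1; exact ⟨_, .lamL _ hs, rfl⟩
    | lamR _ h1 => obtain ⟨A', hs, rfl⟩ := Step.ren_inv h1; exact ⟨_, .lamR _ hs, rfl⟩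
  | .pi A M, r, _, h => by
    cases h with
    | piL _ h1 => obtain ⟨A', hs, rfl⟩ := Step.ren_inv h1; exact ⟨_, .piL _ hs, rfl⟩
    | piR _ h1 => obtain ⟨A', hs, rfl⟩ := Step.ren_inv h1; exact ⟨_, .piR _ hs, rfl⟩

theorem Normal.ren {M : Tm S} (h : M.Normal) (r : ℕ → ℕ) : (M.ren r).Normal := fun _ hs =>
  h _ (Step.ren_inv hs).choose_spec.1

end Tm

end Vale.Agent.P340
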