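import Vale.Agent.P340.T.Skel

/-!
# P340, tiered systems: candidates and the fundamental theorem for an abstract model of one level
-/

namespace Vale.Agent.P340

open Tm

namespace Tier

/-- Not an abstraction. -/
def Neu (t : Tm Bool) : Prop := ∀ a m, t ≠ .lam a m

/-- Reducibility candidates. -/
structure Cand where
  mem : Tm Bool → Prop
  sn : ∀ {t}, mem t → SN t
  step : ∀ {t t'}, mem t → Step t t' → mem t'
  neu : ∀ {t}, Neu t → (∀ t', Step t t' → mem t') → mem t

theorem Cand.red (C : Cand) {t t' : Tm Bool} (h : C.mem t) (hr : Red t t') : C.mem t' := by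
  induction hr with
  | refl => exact h
  | tail _ h1 ih => exact C.step ih h1

theorem Cand.var (C : Cand) (n : ℕ) : C.mem (.var n) :=
  C.neu (fun _ _ h => by cases h) fun _ h => by cases h

theorem Cand.sort (C : Cand) (b : Bool) : C.mem (.sort b) :=
  C.neu (fun _ _ h => by cases h) fun _ h => by cases h

theorem Cand.pi (C : Cand) {a b : Tm Bool} (ha : SN a) (hb : SN b) : C.mem (.pi a b) := by
  have hp := SN.pi ha hb
  generalize hX : Tm.pi a b = X at hp ⊢
  induction hp generalizing a b with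
  | intro X _ ih =>
    subst hX
    refine C.neu (fun _ _ h => by cases h) fun t ht => ?_
    cases ht with
    | piL _ h => exact ih _ (.piL _ h) (ha.step h) hb rfl
    | piR _ h => exact ih _ (.piR _ h) ha (hb.step h) rfl

theorem Cand.lam_app (C : Cand) {m u : Tm Bool} (hm : SN m) (hu : SN u)
    (h : C.mem (m.sub (Tm.one u))) : C.mem (.app (.lam hole m) u) := by
  induction hm generalizing u with
  | intro m hm iM =>
    induction hu with
    | intro u hu iU =>
      refine C.neu (fun _ _ h => by cases h) fun t ht => ?_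
      cases ht with
      | beta => rw [subst_zero]; exact h
      | appL _ h1 =>
        cases h1 with
        | lamL _ h2 => cases h2
        | lamR _ h2 => exact iM _ h2 ⟨_, hu⟩ (C.step h (h2.sub _))
      | appR _ h1 =>
        exact iU _ h1 (C.red h (red_sub fun n => by cases n with
          | zero => exact .single h1
          | succ n => exact .refl))

/-- The largest candidate. -/
def snc : Cand where
  mem := SN
  sn := id
  step := fun h hs => h.step hs
  neu := fun _ h => ⟨_, fun t ht => h t ht⟩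

theorem sn_app_left {t u : Tm Bool} (h : SN (Tm.app t u)) : SN t := by
  generalize hX : Tm.app t u = X at h
  induction h generalizing t with
  | intro X _ ih => exact ⟨_, fun t' ht => ih _ (hX ▸ Step.appL u ht) rfl⟩

/-- The candidate of functions. -/
def arrow (A B : Cand) : Cand where
  mem := fun t => ∀ u, A.mem u → B.mem (.app t u)
  sn := fun h => sn_app_left (B.sn (h _ (A.var 0)))
  step := fun h hs u hu => B.step (h u hu) (.appL u hs)
  neu := fun {t} hn h u hu => by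
    induction A.sn hu with
    | intro u _ ih =>
      refine B.neu (fun _ _ h => by cases h) fun x hx => ?_
      cases hx with
      | beta A' M' _ => exact absurd rfl (hn A' M')
      | appL _ h1 => exact h _ h1 u hu
      | appR _ h1 => exact ih _ h1 (A.step hu h1)

/-- The candidate of expressions whose application to an invisible argument lies in each of a
nonempty family of candidates. -/
def allApp {ι : Type} [Nonempty ι] (f : ι → Cand) : Cand where
  mem := fun t => ∀ i, (f i).mem (.app t hole)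
  sn := fun h => sn_app_left ((f (Classical.arbitrary ι)).sn (h _))
  step := fun h hs i => (f i).step (h i) (.appL _ hs)
  neu := fun {t} hn h i => by
    refine (f i).neu (fun _ _ h => by cases h) fun x hx => ?_
    cases hx with
    | beta A' M' _ => exact absurd rfl (hn A' M')
    | appL _ h1 => exact h _ h1 i
    | appR _ h1 => cases h1

theorem allApp_lam {ι : Type} [Nonempty ι] (f : ι → Cand) {m : Tm Bool} (hm : SN m)
    (h : ∀ i, (f i).mem (m.sub (Tm.one hole))) : (allApp f).mem (.lam hole m) :=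
  fun i => (f i).lam_app hm (.normal (normal_sort _)) (h i)

theorem arrow_lam {A B : Cand} {m : Tm Bool} (hm : SN m)
    (h : ∀ u, A.mem u → B.mem (m.sub (Tm.one u))) : (arrow A B).mem (.lam hole m) :=
  fun u hu => B.lam_app hm (A.sn hu) (h u hu)

/-- An interpretation of the types of level `k + 1` by candidates. -/
structure Model (Y : Sys) (k : ℕ) where
  Env : Type
  Ok : List (Tm ℕ) → Env → Prop
  tl : Env → Env
  J : Env → List (Tm ℕ) → Tm ℕ → Cand
  inh : ∃ η, Ok [] η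
  ext : ∀ {Γ A r η}, Y.T Γ A (.sort r) → Ok Γ η → ∃ η', Ok (A :: Γ) η' ∧ tl η' = η
  ok_tl : ∀ {Γ A η}, Ok (A :: Γ) η → Ok Γ (tl η)
  weak : ∀ {Γ A η T}, Ok (A :: Γ) η → Tys Y Γ T k →
    J η (A :: Γ) (T.ren Nat.succ) = J (tl η) Γ T
  conv : ∀ {Γ η T T'}, Ok Γ η → Tys Y Γ T k → Step T T' → J η Γ T = J η Γ T'
  app : ∀ {Γ η A B a t u}, Ok Γ η → Y.T Γ (.pi A B) (.sort k) → Y.T Γ a A →
    (J η Γ (.pi A B)).mem t → (lev (lv Y Γ) A = k + 1 → (J η Γ A).mem u) →
    (lev (lv Y Γ) A ≠ k + 1 → u = hole) → (J η Γ (B.sub (Tm.one a))).mem (.app t u)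
  lam : ∀ {Γ η A B m}, Ok Γ η → Y.T Γ (.pi A B) (.sort k) → SN m →
    (∀ η', Ok (A :: Γ) η' → tl η' = η → ∀ u, (lev (lv Y Γ) A = k + 1 → (J η Γ A).mem u) →
      (lev (lv Y Γ) A ≠ k + 1 → u = hole) → (J η' (A :: Γ) B).mem (m.sub (Tm.one u))) →
    (J η Γ (.pi A B)).mem (.lam hole m)

variable {Y : Sys} {k : ℕ}

theorem Model.red (Φ : Model Y k) {Γ : List (Tm ℕ)} {η : Φ.Env} {T T' : Tm ℕ} (hη : Φ.Ok Γ η)
    (hT : Tys Y Γ T k) (hr : Red T T') : Φ.J η Γ T = Φ.J η Γ T' := by
  induction hr with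
  | refl => rfl
  | tail h0 h1 ih => exact ih.trans (Φ.conv hη (hT.red h0) h1)

/-- `γ` interprets the variables of level `k` correctly. -/
def Rd (Φ : Model Y k) : List (Tm ℕ) → Φ.Env → (ℕ → Tm Bool) → Prop
  | [], η, γ => ∀ i A, Y.g i = (A, k) → (Φ.J η [] A).mem (γ i)
  | A :: Γ, η, γ => Rd Φ Γ (Φ.tl η) (fun n => γ (n + 1)) ∧
      (lev (lv Y Γ) A = k + 1 → (Φ.J (Φ.tl η) Γ A).mem (γ 0))

theorem Rd.cons {Φ : Model Y k} {Γ : List (Tm ℕ)} {η η' : Φ.Env} {γ : ℕ → Tm Bool} {A : Tm ℕ}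
    {u : Tm Bool} (h : Rd Φ Γ η γ) (ht : Φ.tl η' = η)
    (hu : lev (lv Y Γ) A = k + 1 → (Φ.J η Γ A).mem u) :
    Rd Φ (A :: Γ) η' (Vale.Agent.P340.cons u γ) := by
  subst ht; exact ⟨h, hu⟩

/-- The fundamental theorem. -/
theorem fund (Φ : Model Y k) {Γ : List (Tm ℕ)} {M A : Tm ℕ} (h : Y.T Γ M A) :
    ∀ (η : Φ.Env) (γ : ℕ → Tm Bool), Φ.Ok Γ η → Rd Φ Γ η γ → lev (lv Y Γ) M = k →
      (Φ.J η Γ A).mem ((sk k (lv Y Γ) M).sub γ) := by
  induction h with
  | ax _ =>
    intro η γ _ _ hk; simp only [lev] at hk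
    simp only [sk, if_pos hk, Tm.sub]; exact Cand.sort _ _
  | @gvar i A s he _ _ =>
    intro η γ _ hγ hk
    simp only [sk, if_pos (show lv Y [] i = k from hk), Tm.sub]
    refine hγ i A (he.trans ?_)
    rw [← show (Y.g i).2 = k from hk, show (Y.g i).2 = s from congrArg Prod.snd he]
  | @var Γ A s hA _ =>
    intro η γ hη hγ hk
    have e : lev (lv Y Γ) A = s + 1 := lev_typed hA
    have hs : s = k := by simp only [lev, lv, cons_zero] at hk; omega
    subst hs
    simp only [sk, if_pos (show lv Y (A :: Γ) 0 = s from hk), Tm.sub]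
    rw [Φ.weak hη (.inr hA)]
    exact hγ.2 e
  | @weak Γ M B A s hM _ i1 _ =>
    intro η γ hη hγ hk
    rw [lv, lev_succ] at hk
    rw [Φ.weak hη (hk ▸ key hM), lv, sk_succ, sub_ren]
    exact i1 (Φ.tl η) _ (Φ.ok_tl hη) hγ.1 hk
  | @prod Γ A B r s t hA hB _ i1 i2 =>
    intro η γ hη hγ hk
    have hk' : lev (lv Y (A :: Γ)) B = k := hk
    simp only [sk, if_pos (show lev (cons _ (lv Y Γ)) B = k from hk'), Tm.sub]
    refine Cand.pi _ ?_ ?_
    · by_cases ha : lev (lv Y Γ) A = k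
      · exact Cand.sn _ (i1 η γ hη hγ ha)
      · rw [sk_eq_hole ha]; exact .normal (normal_sort _)
    · obtain ⟨η', hη', ht⟩ := Φ.ext hA hη
      have h1 := i2 η' _ hη' (hγ.cons (u := .var 0) ht fun _ => Cand.var _ _) hk'
      have h2 := Cand.sn _ h1
      rw [← sub_up_one] at h2
      exact h2.of_sub
  | @abs Γ A B M r s hA hM hp _ i1 _ =>
    intro η γ hη hγ hk
    have hk' : lev (lv Y (A :: Γ)) M = k := hk
    obtain ⟨r', s', t, -, hB, hr, hc⟩ := hp.gen_pi
    have e : s = k := ((conv_sort hc).trans hr.2).trans ((lev_eq hM (.inr hB)).symm.trans hk')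
    subst e
    simp only [sk, if_pos (show lev (cons _ (lv Y Γ)) M = s from hk'), Tm.sub]
    have body : ∀ η', Φ.Ok (A :: Γ) η' → Φ.tl η' = η → ∀ u,
        (lev (lv Y Γ) A = s + 1 → (Φ.J η Γ A).mem u) →
        (Φ.J η' (A :: Γ) B).mem (((sk s (lv Y (A :: Γ)) M).sub (Tm.up γ)).sub (Tm.one u)) := by
      intro η' hη' ht u hu
      rw [sub_up_one]
      exact i1 η' _ hη' (hγ.cons ht hu) hk'
    obtain ⟨η', hη', ht⟩ := Φ.ext hA hη
    exact Φ.lam hη hp ((Cand.sn _ (body η' hη' ht (.var 0) fun _ => Cand.var _ _)).of_sub)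
      fun η' hη' ht u hu _ => body η' hη' ht u hu
  | @app Γ A B M N hf ha i1 i2 =>
    intro η γ hη hγ hk
    have hk' : lev (lv Y Γ) M = k := hk
    have hp : Y.T Γ (.pi A B) (.sort k) := hk' ▸ (key hf).pi
    simp only [sk, if_pos hk', Tm.sub]
    have el := lev_type ha
    refine Φ.app hη hp ha (i1 η γ hη hγ hk') (fun hl => i2 η γ hη hγ (by omega)) fun hl => ?_
    rw [sk_eq_hole (show lev (lv Y Γ) N ≠ k by omega)]
    rfl
  | @conv Γ M A B s hM hB he i1 _ =>
    intro η γ hη hγ hk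
    obtain ⟨d, h1, h2⟩ := he
    have hs : Tys Y Γ B k := hk ▸ key (H.conv hM hB ⟨d, h1, h2⟩)
    have hA : Tys Y Γ A k := hk ▸ key hM
    rw [Φ.red hη hs h2, ← Φ.red hη hA h1]
    exact i1 η γ hη hγ hk

theorem Rd.var (Φ : Model Y k) : ∀ (Γ : List (Tm ℕ)) (η : Φ.Env) (r : ℕ → ℕ),
    Rd Φ Γ η fun n => .var (r n)
  | [], _, _ => fun _ _ _ => Cand.var _ _
  | _ :: Γ, η, r => ⟨Rd.var Φ Γ (Φ.tl η) _, fun _ => Cand.var _ _⟩

theorem Model.exists_ok (Φ : Model Y k) : ∀ {Γ : List (Tm ℕ)}, Wf (chain Y.R Y.K) Y.E Γ →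
    ∃ η, Φ.Ok Γ η
  | _, .nil => Φ.inh
  | _, .cons hw hA => by
    obtain ⟨η, hη⟩ := Φ.exists_ok hw
    obtain ⟨η', hη', -⟩ := Φ.ext hA hη
    exact ⟨η', hη'⟩

/-- A model at level `k` gives strong normalization at level `k`. -/
theorem Model.good (Φ : Model Y k) (ab : Above Y k) {Γ : List (Tm ℕ)} {M A : Tm ℕ}
    (h : Y.T Γ M A) (hk : lev (lv Y Γ) M = k) : SN M ∧ SN (sk k (lv Y Γ) M) := by
  obtain ⟨η, hη⟩ := Φ.exists_ok h.wf
  have hs := Cand.sn _ (fund Φ h η _ hη (Rd.var Φ Γ η id) hk)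
  rw [show (fun n => Tm.var (id n)) = (Tm.var : ℕ → Tm Bool) from rfl, sub_var] at hs
  exact ⟨lift_sn ab hs h hk rfl, hs⟩

end Tier

end Vale.Agent.P340
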