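import Vale.Agent.P340.T.Confl

/-!
# P340, tiered systems: typing over a fixed supply of global assumptions, and its metatheory

`H P E` is the typing relation of `P` in which, besides the seven rules, the global variable `i`
may be given the type `A` as soon as `E i A s` and `A : s` without local assumptions.
-/

namespace Vale.Agent.P340

open Tm

universe u

variable {S : Type u}

/-- Typing with global assumptions `E`. -/
inductive H (P : Spec S) (E : ℕ → Tm S → S → Prop) : List (Tm S) → Tm S → Tm S → Prop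
  | ax {s t : S} : (s, t) ∈ P.ax → H P E [] (.sort s) (.sort t)
  | gvar {i : ℕ} {A : Tm S} {s : S} : E i A s → H P E [] A (.sort s) → H P E [] (.var i) A
  | var {Γ : List (Tm S)} {A : Tm S} {s : S} : H P E Γ A (.sort s) →
      H P E (A :: Γ) (.var 0) (A.ren Nat.succ)
  | weak {Γ : List (Tm S)} {M B A : Tm S} {s : S} : H P E Γ M B → H P E Γ A (.sort s) →
      H P E (A :: Γ) (M.ren Nat.succ) (B.ren Nat.succ)
  | prod {Γ : List (Tm S)} {A B : Tm S} {r s t : S} : H P E Γ A (.sort r) →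
      H P E (A :: Γ) B (.sort s) → (r, s, t) ∈ P.rule → H P E Γ (.pi A B) (.sort t)
  | abs {Γ : List (Tm S)} {A B M : Tm S} {r s : S} : H P E Γ A (.sort r) →
      H P E (A :: Γ) M B → H P E Γ (.pi A B) (.sort s) → H P E Γ (.lam A M) (.pi A B)
  | app {Γ : List (Tm S)} {A B M N : Tm S} : H P E Γ M (.pi A B) → H P E Γ N A →
      H P E Γ (.app M N) (B.sub (one N))
  | conv {Γ : List (Tm S)} {M A B : Tm S} {s : S} : H P E Γ M A → H P E Γ B (.sort s) →
      Conv A B → H P E Γ M B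

/-- No global assumptions. -/
def noGlobals : ℕ → Tm S → S → Prop := fun _ _ _ => False

variable {P : Spec S} {E : ℕ → Tm S → S → Prop}

theorem H.mono {Q : Spec S} (hA : P.ax ⊆ Q.ax) (hR : P.rule ⊆ Q.rule)
    {Γ : List (Tm S)} {M A : Tm S} (h : H P E Γ M A) : H Q E Γ M A := by
  induction h with
  | ax hp => exact .ax (hA hp)
  | gvar he _ ih => exact .gvar he ih
  | var _ ih => exact .var ih
  | weak _ _ i1 i2 => exact .weak i1 i2
  | prod _ _ hr i1 i2 => exact .prod i1 i2 (hR hr)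
  | abs _ _ _ i1 i2 i3 => exact .abs i1 i2 i3
  | app _ _ i1 i2 => exact .app i1 i2
  | conv _ _ he i1 i2 => exact .conv i1 i2 he

/-- Well formed contexts. -/
inductive Wf (P : Spec S) (E : ℕ → Tm S → S → Prop) : List (Tm S) → Prop
  | nil : Wf P E []
  | cons {Γ : List (Tm S)} {A : Tm S} {s : S} : Wf P E Γ → H P E Γ A (.sort s) →
      Wf P E (A :: Γ)

theorem H.wf {Γ : List (Tm S)} {M A : Tm S} (h : H P E Γ M A) : Wf P E Γ := by
  induction h with
  | ax _ => exact .nil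
  | gvar _ _ _ => exact .nil
  | var h ih => exact .cons ih h
  | weak _ h ih _ => exact .cons ih h
  | prod _ _ _ ih _ => exact ih
  | abs _ _ _ ih _ _ => exact ih
  | app _ _ ih _ => exact ih
  | conv _ _ _ ih _ => exact ih

theorem Wf.head {Γ : List (Tm S)} {A : Tm S} (h : Wf P E (A :: Γ)) :
    ∃ s, H P E Γ A (.sort s) := by
  cases h with
  | cons _ hA => exact ⟨_, hA⟩

theorem Derives.toH {P : Spec S} {Γ : List (Tm S)} {M A : Tm S} (h : Derives P Γ M A)
    (E : ℕ → Tm S → S → Prop) : H P E Γ M A := by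
  induction h with
  | ax' hp => exact .ax hp
  | variable' _ ih => rw [lift_zero]; exact .var ih
  | weakening _ _ i1 i2 => rw [lift_zero, lift_zero]; exact .weak i1 i2
  | product _ _ hr i1 i2 => exact .prod i1 i2 hr
  | abstraction _ _ i1 i2 =>
    obtain ⟨r, hr⟩ := i1.wf.head
    exact .abs hr i1 i2
  | application _ _ i1 i2 => rw [subst_zero]; exact .app i1 i2
  | conversion _ _ he i1 i2 => exact .conv i1 i2 he.conv

theorem thin {M A : Tm S} (h : H P E [] M A) : ∀ {Δ : List (Tm S)}, Wf P E Δ →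
    H P E Δ (M.ren (· + Δ.length)) (A.ren (· + Δ.length))
  | _, .nil => by
    simp only [List.length_nil, Nat.add_zero]
    rw [← sub_var_comp, ← sub_var_comp]
    simpa only [sub_var] using h
  | _, .cons (Γ := Γ) hw hA => by
    have h1 := H.weak (thin h hw) hA
    rw [ren_ren, ren_ren] at h1
    exact h1

/-- `σ` maps the variables of `Γ` to terms of the right types over `Δ`, and fixes the globals. -/
def Sub (P : Spec S) (E : ℕ → Tm S → S → Prop) :
    List (Tm S) → (ℕ → Tm S) → List (Tm S) → Prop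
  | [], σ, Δ => Wf P E Δ ∧ ∀ i, σ i = .var (i + Δ.length)
  | A :: Γ, σ, Δ => Sub P E Γ (fun n => σ (n + 1)) Δ ∧
      H P E Δ (σ 0) (A.sub fun n => σ (n + 1))

theorem Sub.weak : ∀ {Γ : List (Tm S)} {σ : ℕ → Tm S} {Δ : List (Tm S)} {A : Tm S} {s : S},
    Sub P E Γ σ Δ → H P E Δ A (.sort s) →
      Sub P E Γ (fun n => (σ n).ren Nat.succ) (A :: Δ)
  | [], σ, Δ, A, s, h, hA => ⟨.cons h.1 hA, fun i => by simp [h.2 i, Tm.ren, Nat.add_assoc]⟩
  | B :: Γ, σ, Δ, A, s, h, hA => ⟨Sub.weak h.1 hA, by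
      have h1 := H.weak h.2 hA
      rw [ren_sub] at h1
      exact h1⟩

theorem Sub.up {Γ : List (Tm S)} {σ : ℕ → Tm S} {Δ : List (Tm S)} {A : Tm S} {s : S}
    (h : Sub P E Γ σ Δ) (hA : H P E Δ (A.sub σ) (.sort s)) :
    Sub P E (A :: Γ) (Tm.up σ) (A.sub σ :: Δ) :=
  ⟨h.weak hA, by
    have h1 := H.var hA
    rw [ren_sub] at h1
    exact h1⟩

theorem H.sub {Γ : List (Tm S)} {M A : Tm S} (h : H P E Γ M A) :
    ∀ {σ : ℕ → Tm S} {Δ : List (Tm S)}, Sub P E Γ σ Δ → H P E Δ (M.sub σ) (A.sub σ) := by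
  induction h with
  | ax hp =>
    intro σ Δ hs; simpa [Tm.sub, Tm.ren] using thin (H.ax (E := E) hp) hs.1
  | @gvar i A s he hA _ =>
    intro σ Δ hs
    have h1 := thin (H.gvar he hA) hs.1
    rw [show σ = fun n => .var (n + Δ.length) from funext hs.2, sub_var_comp, sub_var_comp]
    exact h1
  | var _ _ =>
    intro σ Δ hs; rw [sub_ren]; exact hs.2
  | weak _ _ i1 _ =>
    intro σ Δ hs; rw [sub_ren, sub_ren]; exact i1 hs.1
  | prod _ _ hr i1 i2 =>
    intro σ Δ hs; exact .prod (i1 hs) (i2 (hs.up (i1 hs))) hr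
  | abs _ _ _ i0 i1 i2 =>
    intro σ Δ hs; exact .abs (i0 hs) (i1 (hs.up (i0 hs))) (i2 hs)
  | app _ _ i1 i2 =>
    intro σ Δ hs
    have h1 := H.app (i1 hs) (i2 hs)
    rw [← sub_one_comp] at h1
    exact h1
  | conv _ _ he i1 i2 =>
    intro σ Δ hs; exact .conv (i1 hs) (i2 hs) (he.sub σ)

theorem Sub.var : ∀ {Γ : List (Tm S)}, Wf P E Γ → Sub P E Γ Tm.var Γ
  | [], h => ⟨h, fun i => by simp⟩
  | A :: Γ, .cons hw hA => by
    refine ⟨?_, ?_⟩
    · simpa [Tm.ren] using (Sub.var hw).weak hA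
    · simp only [show (fun n => (Tm.var (n + 1) : Tm S)) = fun n => Tm.var (Nat.succ n) from rfl,
        sub_var_comp]
      exact H.var hA

theorem Sub.one {Γ : List (Tm S)} {A N : Tm S} (h : H P E Γ N A) :
    Sub P E (A :: Γ) (Tm.one N) Γ :=
  ⟨Sub.var h.wf, by
    show H P E Γ N (A.sub Tm.var)
    rw [sub_var]; exact h⟩

theorem H.subst {Γ : List (Tm S)} {A N M B : Tm S} (hM : H P E (A :: Γ) M B)
    (hN : H P E Γ N A) : H P E Γ (M.sub (Tm.one N)) (B.sub (Tm.one N)) :=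
  hM.sub (Sub.one hN)

theorem H.head_conv {Γ : List (Tm S)} {A A' M B : Tm S} {r r' : S} (hM : H P E (A :: Γ) M B)
    (hA : H P E Γ A (.sort r)) (hA' : H P E Γ A' (.sort r')) (hc : Conv A A') :
    H P E (A' :: Γ) M B := by
  have hs : Sub P E (A :: Γ) Tm.var (A' :: Γ) := by
    refine ⟨?_, ?_⟩
    · simpa [Tm.ren] using (Sub.var hA.wf).weak hA'
    · simp only [show (fun n => (Tm.var (n + 1) : Tm S)) = fun n => Tm.var (Nat.succ n) from rfl,
        sub_var_comp]
      exact .conv (.var hA') (.weak hA hA') (hc.symm.ren _)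
  have h := hM.sub hs
  rwa [sub_var, sub_var] at h

/-- The type of a variable. -/
inductive Look (E : ℕ → Tm S → S → Prop) : List (Tm S) → ℕ → Tm S → Prop
  | glob {i : ℕ} {A : Tm S} {s : S} : E i A s → Look E [] i A
  | here {Γ : List (Tm S)} {A : Tm S} : Look E (A :: Γ) 0 (A.ren Nat.succ)
  | there {Γ : List (Tm S)} {A B : Tm S} {k : ℕ} : Look E Γ k B →
      Look E (A :: Γ) (k + 1) (B.ren Nat.succ)

theorem H.gen_var {Γ : List (Tm S)} {k : ℕ} {T : Tm S} (h : H P E Γ (.var k) T) :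
    ∃ A, Look E Γ k A ∧ Conv T A := by
  generalize hX : Tm.var k = X at h
  induction h generalizing k with
  | ax _ => cases hX
  | gvar he _ _ => cases hX; exact ⟨_, .glob he, .rfl'⟩
  | var _ _ => cases hX; exact ⟨_, .here, .rfl'⟩
  | @weak Γ' M' B' A' s' _ _ ih _ =>
    cases M' <;> simp only [Tm.ren, Tm.var.injEq, reduceCtorEq] at hX
    subst hX
    obtain ⟨A, hl, hc⟩ := ih rfl
    exact ⟨_, .there hl, hc.ren _⟩
  | prod _ _ _ _ _ => cases hX
  | abs _ _ _ _ _ _ => cases hX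
  | app _ _ _ _ => cases hX
  | conv _ _ he ih _ =>
    obtain ⟨A, hl, hc⟩ := ih hX
    exact ⟨A, hl, he.symm.trans hc⟩

theorem H.gen_sort {Γ : List (Tm S)} {s : S} {T : Tm S} (h : H P E Γ (.sort s) T) :
    ∃ t, (s, t) ∈ P.ax ∧ Conv T (.sort t) := by
  generalize hX : Tm.sort s = X at h
  induction h with
  | ax hp => cases hX; exact ⟨_, hp, .rfl'⟩
  | gvar _ _ _ => cases hX
  | var _ _ => cases hX
  | @weak Γ' M' B' A' s' _ _ ih _ =>
    cases M' <;> simp only [Tm.ren, Tm.sort.injEq, reduceCtorEq] at hX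
    subst hX
    obtain ⟨t, ht, hc⟩ := ih rfl
    exact ⟨t, ht, hc.ren _⟩
  | prod _ _ _ _ _ => cases hX
  | abs _ _ _ _ _ _ => cases hX
  | app _ _ _ _ => cases hX
  | conv _ _ he ih _ =>
    obtain ⟨t, ht, hc⟩ := ih hX
    exact ⟨t, ht, he.symm.trans hc⟩

theorem H.ren_cons {Γ : List (Tm S)} {A C M B : Tm S} {r r' : S} (hM : H P E (A :: Γ) M B)
    (hA : H P E Γ A (.sort r)) (hC : H P E Γ C (.sort r')) :
    H P E (A.ren Nat.succ :: C :: Γ) (M.ren (upr Nat.succ)) (B.ren (upr Nat.succ)) := by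
  have h0 : Sub P E Γ (fun n => Tm.var (Nat.succ n)) (C :: Γ) := by
    simpa [Tm.ren] using (Sub.var hA.wf).weak hC
  have h1 := hM.sub (h0.up (A := A) (s := r) (by
    rw [sub_var_comp]; exact H.weak hA hC))
  rw [Tm.up_ren, sub_var_comp, sub_var_comp, sub_var_comp] at h1
  exact h1

theorem H.gen_pi {Γ : List (Tm S)} {A B T : Tm S} (h : H P E Γ (.pi A B) T) :
    ∃ r s t, H P E Γ A (.sort r) ∧ H P E (A :: Γ) B (.sort s) ∧ (r, s, t) ∈ P.rule ∧
      Conv T (.sort t) := by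
  generalize hX : Tm.pi A B = X at h
  induction h generalizing A B with
  | ax _ => cases hX
  | gvar _ _ _ => cases hX
  | var _ _ => cases hX
  | @weak Γ' M' B' A' s' _ hC ih _ =>
    cases M' <;> simp only [Tm.ren, Tm.pi.injEq, reduceCtorEq] at hX
    obtain ⟨rfl, rfl⟩ := hX
    obtain ⟨r, s, t, hA, hB, hr, hc⟩ := ih rfl
    exact ⟨r, s, t, .weak hA hC, hB.ren_cons hA hC, hr, hc.ren _⟩
  | prod hA hB hr _ _ => cases hX; exact ⟨_, _, _, hA, hB, hr, .rfl'⟩
  | abs _ _ _ _ _ _ => cases hX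
  | app _ _ _ _ => cases hX
  | conv _ _ he ih _ =>
    obtain ⟨r, s, t, hA, hB, hr, hc⟩ := ih hX
    exact ⟨r, s, t, hA, hB, hr, he.symm.trans hc⟩

theorem H.gen_lam {Γ : List (Tm S)} {A M T : Tm S} (h : H P E Γ (.lam A M) T) :
    ∃ B r s, H P E Γ A (.sort r) ∧ H P E (A :: Γ) M B ∧ H P E Γ (.pi A B) (.sort s) ∧
      Conv T (.pi A B) := by
  generalize hX : Tm.lam A M = X at h
  induction h generalizing A M with
  | ax _ => cases hX
  | gvar _ _ _ => cases hX
  | var _ _ => cases hX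
  | @weak Γ' M' B' A' s' _ hC ih _ =>
    cases M' <;> simp only [Tm.ren, Tm.lam.injEq, reduceCtorEq] at hX
    obtain ⟨rfl, rfl⟩ := hX
    obtain ⟨B, r, s, hA, hM, hp, hc⟩ := ih rfl
    exact ⟨_, r, s, .weak hA hC, hM.ren_cons hA hC, .weak hp hC, hc.ren _⟩
  | prod _ _ _ _ _ => cases hX
  | abs hA hM hp _ _ _ => cases hX; exact ⟨_, _, _, hA, hM, hp, .rfl'⟩
  | app _ _ _ _ => cases hX
  | conv _ _ he ih _ =>
    obtain ⟨B, r, s, hA, hM, hp, hc⟩ := ih hX
    exact ⟨B, r, s, hA, hM, hp, he.symm.trans hc⟩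

theorem H.gen_app {Γ : List (Tm S)} {f a T : Tm S} (h : H P E Γ (.app f a) T) :
    ∃ A B, H P E Γ f (.pi A B) ∧ H P E Γ a A ∧ Conv T (B.sub (Tm.one a)) := by
  generalize hX : Tm.app f a = X at h
  induction h generalizing f a with
  | ax _ => cases hX
  | gvar _ _ _ => cases hX
  | var _ _ => cases hX
  | @weak Γ' M' B' A' s' _ hC ih _ =>
    cases M' <;> simp only [Tm.ren, Tm.app.injEq, reduceCtorEq] at hX
    obtain ⟨rfl, rfl⟩ := hX
    obtain ⟨A, B, hf, ha, hc⟩ := ih rfl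
    refine ⟨_, B.ren (upr Nat.succ), .weak hf hC, .weak ha hC, ?_⟩
    rw [← ren_one_comp]; exact hc.ren _
  | prod _ _ _ _ _ => cases hX
  | abs _ _ _ _ _ _ => cases hX
  | app hf ha _ _ => cases hX; exact ⟨_, _, hf, ha, .rfl'⟩
  | conv _ _ he ih _ =>
    obtain ⟨A, B, hf, ha, hc⟩ := ih hX
    exact ⟨A, B, hf, ha, he.symm.trans hc⟩

/-- A type is a sort or has one. -/
theorem H.correct {Γ : List (Tm S)} {M A : Tm S} (h : H P E Γ M A) :
    (∃ s, A = .sort s) ∨ ∃ s, H P E Γ A (.sort s) := by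
  induction h with
  | ax _ => exact .inl ⟨_, rfl⟩
  | gvar _ hA _ => exact .inr ⟨_, hA⟩
  | var hA _ => exact .inr ⟨_, .weak hA hA⟩
  | weak _ hC ih _ =>
    rcases ih with ⟨s, rfl⟩ | ⟨s, h'⟩
    · exact .inl ⟨s, rfl⟩
    · exact .inr ⟨s, .weak h' hC⟩
  | prod _ _ _ _ _ => exact .inl ⟨_, rfl⟩
  | abs _ _ hp _ _ _ => exact .inr ⟨_, hp⟩
  | app _ ha ih _ =>
    rcases ih with ⟨s, hs⟩ | ⟨s, h'⟩
    · cases hs
    · obtain ⟨r, s', t, -, hB, -, -⟩ := h'.gen_pi
      exact .inr ⟨s', hB.subst ha⟩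
  | conv _ hB _ _ _ => exact .inr ⟨_, hB⟩

/-- Subject reduction. -/
theorem H.step {Γ : List (Tm S)} {M A : Tm S} (h : H P E Γ M A) :
    ∀ {N : Tm S}, Step M N → H P E Γ N A := by
  induction h with
  | ax _ => intro N hs; cases hs
  | gvar _ _ _ => intro N hs; cases hs
  | var _ _ => intro N hs; cases hs
  | weak _ hC i1 _ =>
    intro N hs
    obtain ⟨N', hs', rfl⟩ := hs.ren_inv
    exact .weak (i1 hs') hC
  | prod hA hB hr i1 i2 =>
    intro N hs
    cases hs with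
    | piL _ h1 => exact .prod (i1 h1) (hB.head_conv hA (i1 h1) (.of_red (.single h1))) hr
    | piR _ h1 => exact .prod hA (i2 h1) hr
  | abs hA hM hp i0 i1 i2 =>
    intro N hs
    cases hs with
    | lamL _ h1 =>
      exact .conv (.abs (i0 h1) (hM.head_conv hA (i0 h1) (.of_red (.single h1)))
        (i2 (.piL _ h1))) hp (Conv.of_red (.single (.piL _ h1))).symm
    | lamR _ h1 => exact .abs hA (i1 h1) hp
  | @app Γ A B M N hf ha i1 i2 =>
    intro X hs
    cases hs with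
    | beta A' M' _ =>
      rw [subst_zero]
      obtain ⟨B', r, s, hA', hM', -, hc⟩ := hf.gen_lam
      obtain ⟨hcA, hcB⟩ := conv_pi hc
      rcases hf.correct with ⟨t, ht⟩ | ⟨t, ht⟩
      · cases ht
      · obtain ⟨r1, s1, t1, hA1, hB1, -, -⟩ := ht.gen_pi
        exact .conv (hM'.subst (.conv ha hA' hcA)) (hB1.subst ha) (hcB.symm.sub _)
    | appL _ h1 => exact .app (i1 h1) ha
    | appR _ h1 =>
      rcases hf.correct with ⟨t, ht⟩ | ⟨t, ht⟩
      · cases ht
      · obtain ⟨r1, s1, t1, hA1, hB1, -, -⟩ := ht.gen_pi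
        exact .conv (.app hf (i2 h1)) (hB1.subst ha) (conv_one B (.single h1)).symm
  | conv _ hB he i1 _ =>
    intro N hs; exact .conv (i1 hs) hB he

theorem H.red {Γ : List (Tm S)} {M N A : Tm S} (h : H P E Γ M A) (hr : Red M N) :
    H P E Γ N A := by
  induction hr with
  | refl => exact h
  | tail _ h1 ih => exact ih.step h1

end Vale.Agent.P340
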