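import Vale.Agent.P340.T.Judg

/-!
# P340, tiered systems: levels

In a chain of sorts with nondependent rules every typed expression has a level: the sort index of
the type of its type.  The level only looks at the head, and components have levels at least as
large.
-/

namespace Vale.Agent.P340

open Tm

universe u

section

variable {S : Type u} {P : Spec S} {E : ℕ → Tm S → S → Prop}

theorem Look.unique (hE : ∀ i A s B t, E i A s → E i B t → A = B) {Γ : List (Tm S)} {k : ℕ}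
    {A : Tm S} (h : Look E Γ k A) : ∀ {B}, Look E Γ k B → A = B := by
  induction h with
  | glob he => intro B h; cases h with | glob he' => exact hE _ _ _ _ _ he he'
  | here => intro B h; cases h with | here => rfl
  | there _ ih => intro B h; cases h with | there h' => rw [ih h']

/-- Uniqueness of types for a functional specification. -/
theorem H.unique (hA : ∀ s t t', (s, t) ∈ P.ax → (s, t') ∈ P.ax → t = t')
    (hR : ∀ r s t t', (r, s, t) ∈ P.rule → (r, s, t') ∈ P.rule → t = t')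
    (hE : ∀ i A s B t, E i A s → E i B t → A = B) :
    ∀ {M : Tm S} {Γ : List (Tm S)} {A B : Tm S}, H P E Γ M A → H P E Γ M B → Conv A B := by
  intro M
  induction M with
  | var k =>
    intro Γ A B h h'
    obtain ⟨C, hl, hc⟩ := h.gen_var
    obtain ⟨C', hl', hc'⟩ := h'.gen_var
    cases hl.unique hE hl'
    exact hc.trans hc'.symm
  | sort s =>
    intro Γ A B h h'
    obtain ⟨t, ht, hc⟩ := h.gen_sort
    obtain ⟨t', ht', hc'⟩ := h'.gen_sort
    cases hA _ _ _ ht ht'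
    exact hc.trans hc'.symm
  | app f a ihf _ =>
    intro Γ A B h h'
    obtain ⟨C, D, hf, -, hc⟩ := h.gen_app
    obtain ⟨C', D', hf', -, hc'⟩ := h'.gen_app
    exact (hc.trans ((conv_pi (ihf hf hf')).2.sub _)).trans hc'.symm
  | lam C M _ ihM =>
    intro Γ A B h h'
    obtain ⟨D, r, s, -, hM, -, hc⟩ := h.gen_lam
    obtain ⟨D', r', s', -, hM', -, hc'⟩ := h'.gen_lam
    exact (hc.trans (Conv.pi .rfl' (ihM hM hM'))).trans hc'.symm
  | pi C D ihC ihD =>
    intro Γ A B h h'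
    obtain ⟨r, s, t, hC, hD, hr, hc⟩ := h.gen_pi
    obtain ⟨r', s', t', hC', hD', hr', hc'⟩ := h'.gen_pi
    cases conv_sort (ihC hC hC')
    cases conv_sort (ihD hD hD')
    cases hR _ _ _ _ hr hr'
    exact hc.trans hc'.symm

end

namespace Tier

/-- The chain `0 : 1 : ⋯ : K` with the rules `(i, j, j)` for `R i j`. -/
def chain (R : ℕ → ℕ → Prop) (K : ℕ) : Spec ℕ where
  ax := {p | p.2 = p.1 + 1 ∧ p.2 ≤ K}
  rule := {p | R p.1 p.2.1 ∧ p.2.2 = p.2.1}

/-- A nondependent tiered system of bounded height, with an exhaustive supply of globals. -/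
structure Sys where
  R : ℕ → ℕ → Prop
  nd : ∀ i j, R i j → j ≤ i
  K : ℕ
  g : ℕ → Tm ℕ × ℕ
  surj : Function.Surjective g

/-- A number coding an expression. -/
def code : Tm ℕ → ℕ
  | .var k => Nat.pair 0 k
  | .sort s => Nat.pair 1 s
  | .app f a => Nat.pair 2 (Nat.pair (code f) (code a))
  | .lam A M => Nat.pair 3 (Nat.pair (code A) (code M))
  | .pi A B => Nat.pair 4 (Nat.pair (code A) (code B))

theorem code_inj : Function.Injective code := by
  intro M
  induction M with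
  | var k => intro N h; cases N <;> simp_all [code]
  | sort k => intro N h; cases N <;> simp_all [code]
  | app f a i1 i2 =>
    intro N h; cases N <;> simp [code] at h ⊢
    exact ⟨i1 h.1, i2 h.2⟩
  | lam f a i1 i2 =>
    intro N h; cases N <;> simp [code] at h ⊢
    exact ⟨i1 h.1, i2 h.2⟩
  | pi f a i1 i2 =>
    intro N h; cases N <;> simp [code] at h ⊢
    exact ⟨i1 h.1, i2 h.2⟩

theorem exists_sys (R : ℕ → ℕ → Prop) (nd : ∀ i j, R i j → j ≤ i) (K : ℕ) :
    ∃ Y : Sys, Y.R = R ∧ Y.K = K := by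
  have : Countable (Tm ℕ) := code_inj.countable
  have : Nonempty (Tm ℕ × ℕ) := ⟨(.var 0, 0)⟩
  obtain ⟨g, hg⟩ := exists_surjective_nat (Tm ℕ × ℕ)
  exact ⟨⟨R, nd, K, g, hg⟩, rfl, rfl⟩

variable {Y : Sys} {Γ Δ : List (Tm ℕ)} {M N A B : Tm ℕ}

/-- The global assumptions of a system. -/
abbrev Sys.E (Y : Sys) : ℕ → Tm ℕ → ℕ → Prop := fun i A s => Y.g i = (A, s)

/-- Typing in a system. -/
abbrev Sys.T (Y : Sys) : List (Tm ℕ) → Tm ℕ → Tm ℕ → Prop := H (chain Y.R Y.K) Y.E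

/-- `A` is a type of level `n + 1`: a sort or an expression of type sort `n`. -/
def Tys (Y : Sys) (Γ : List (Tm ℕ)) (A : Tm ℕ) (n : ℕ) : Prop :=
  (∃ s, A = .sort s ∧ n = s + 1) ∨ Y.T Γ A (.sort n)

theorem uniq (h : Y.T Γ M A) (h' : Y.T Γ M B) : Conv A B := by
  refine H.unique ?_ ?_ ?_ h h'
  · intro s t t' ht ht'; exact ht.1.trans ht'.1.symm
  · intro r s t t' ht ht'; exact ht.2.trans ht'.2.symm
  · intro i A s B t ht ht'; exact (Prod.mk.inj (ht.symm.trans ht')).1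

theorem uniq_sort {r s : ℕ} (h : Y.T Γ M (.sort r)) (h' : Y.T Γ M (.sort s)) : r = s :=
  conv_sort (uniq h h')

theorem sort_sort {r s : ℕ} (h : Y.T Γ (.sort r) (.sort s)) : s = r + 1 := by
  obtain ⟨t, ht, hc⟩ := h.gen_sort
  exact (conv_sort hc).trans ht.1

theorem Tys.unique {n n' : ℕ} (h : Tys Y Γ A n) (h' : Tys Y Γ A n') : n = n' := by
  rcases h with ⟨s, rfl, rfl⟩ | h <;> rcases h' with ⟨s', e, rfl⟩ | h'
  · cases e; rfl
  · exact (sort_sort h').symm
  · cases e; exact sort_sort h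
  · exact uniq_sort h h'

theorem Tys.of_typed {n m : ℕ} (h : Tys Y Γ A n) (h' : Y.T Γ A (.sort m)) : n = m :=
  h.unique (.inr h')

theorem Tys.step {n : ℕ} (h : Tys Y Γ A n) (hs : Step A B) : Tys Y Γ B n := by
  rcases h with ⟨s, rfl, rfl⟩ | h
  · cases hs
  · exact .inr (h.step hs)

theorem Tys.red {n : ℕ} (h : Tys Y Γ A n) (hs : Red A B) : Tys Y Γ B n := by
  induction hs with
  | refl => exact h
  | tail _ h1 ih => exact ih.step h1

theorem Tys.pi {n : ℕ} (h : Tys Y Γ (.pi A B) n) : Y.T Γ (.pi A B) (.sort n) := by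
  rcases h with ⟨s, e, -⟩ | h
  · cases e
  · exact h

/-- The level of an expression, given the levels of the variables. -/
def lev : (ℕ → ℕ) → Tm ℕ → ℕ
  | L, .var n => L n
  | _, .sort s => s + 2
  | L, .app f _ => lev L f
  | L, .lam A M => lev (cons (lev L A - 1) L) M
  | L, .pi A B => lev (cons (lev L A - 1) L) B

/-- The levels of the variables over a context. -/
def lv (Y : Sys) : List (Tm ℕ) → ℕ → ℕ
  | [] => fun i => (Y.g i).2
  | A :: Γ => cons (lev (lv Y Γ) A - 1) (lv Y Γ)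

theorem lev_ren : ∀ (M : Tm ℕ) (L : ℕ → ℕ) (r : ℕ → ℕ),
    lev L (M.ren r) = lev (fun n => L (r n)) M
  | .var _, _, _ => rfl
  | .sort _, _, _ => rfl
  | .app f _, L, r => lev_ren f L r
  | .lam A M, L, r => by
    simp only [Tm.ren, lev]; rw [lev_ren A, lev_ren M]; congr 1; funext n; cases n <;> rfl
  | .pi A B, L, r => by
    simp only [Tm.ren, lev]; rw [lev_ren A, lev_ren B]; congr 1; funext n; cases n <;> rfl

theorem lev_succ (M : Tm ℕ) (x : ℕ) (L : ℕ → ℕ) :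
    lev (cons x L) (M.ren Nat.succ) = lev L M :=
  lev_ren M _ _

theorem lev_up {σ : ℕ → Tm ℕ} {L L' : ℕ → ℕ} (h : ∀ n, lev L (σ n) = L' n) (x : ℕ) :
    ∀ n, lev (cons x L) (Tm.up σ n) = cons x L' n := by
  intro n; cases n with
  | zero => rfl
  | succ n => exact (lev_succ _ _ _).trans (h n)

theorem lev_sub : ∀ (M : Tm ℕ) (σ : ℕ → Tm ℕ) (L L' : ℕ → ℕ), (∀ n, lev L (σ n) = L' n) →
    lev L (M.sub σ) = lev L' M
  | .var n, _, _, _, h => h n
  | .sort _, _, _, _, _ => rfl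
  | .app f _, σ, L, L', h => lev_sub f σ L L' h
  | .lam A M, σ, L, L', h => by
    simp only [Tm.sub, lev]; rw [lev_sub A σ L L' h]; exact lev_sub M _ _ _ (lev_up h _)
  | .pi A B, σ, L, L', h => by
    simp only [Tm.sub, lev]; rw [lev_sub A σ L L' h]; exact lev_sub B _ _ _ (lev_up h _)

/-- The type of an expression is one level up. -/
theorem key (h : Y.T Γ M A) : Tys Y Γ A (lev (lv Y Γ) M) := by
  induction h with
  | ax hp => exact .inl ⟨_, rfl, by simp only [lev]; obtain ⟨e, -⟩ := hp; dsimp only at e; omega⟩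
  | @gvar i A s he hA _ =>
    refine .inr ?_
    have : lev (lv Y []) (.var i) = s := congrArg Prod.snd he
    rw [this]; exact hA
  | @var Γ A s hA ih =>
    refine .inr ?_
    have hl : lev (lv Y Γ) A = s + 1 := by
      rcases ih with ⟨t, e, ht⟩ | ht
      · cases e; exact ht
      · exact sort_sort ht
    have : lev (lv Y (A :: Γ)) (.var 0) = s := by simp [lev, lv, hl]
    rw [this]; exact H.weak hA hA
  | @weak Γ M B A s _ hA i1 _ =>
    rw [lv, lev_succ]
    rcases i1 with ⟨t, rfl, ht⟩ | ht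
    · exact .inl ⟨t, rfl, ht⟩
    · exact .inr (H.weak ht hA)
  | @prod Γ A B r s t _ _ hr _ i2 =>
    refine .inl ⟨t, rfl, ?_⟩
    have hts : t = s := hr.2
    rcases i2 with ⟨u, e, hu⟩ | hu
    · cases e; exact hu.trans (by rw [hts])
    · exact (sort_sort hu).trans (by rw [hts])
  | @abs Γ A B M r s _ _ hp _ i1 _ =>
    obtain ⟨r', s', t, -, hB, hr, hc⟩ := hp.gen_pi
    have e : s = s' := (conv_sort hc).trans hr.2
    have hn : lev (lv Y (A :: Γ)) M = s' := i1.of_typed hB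
    refine .inr ?_
    have : lev (lv Y Γ) (.lam A M) = s := hn.trans e.symm
    rw [this]; exact hp
  | @app Γ A B M N _ ha i1 _ =>
    obtain ⟨r, s, t, -, hB, hr, hc⟩ := i1.pi.gen_pi
    have e : lev (lv Y Γ) M = s := (conv_sort hc).trans hr.2
    exact .inr (e.symm ▸ hB.subst ha :)
  | @conv Γ M A B s _ hB he i1 _ =>
    obtain ⟨d, h1, h2⟩ := he
    have := (i1.red h1).of_typed (hB.red h2)
    exact .inr (this.symm ▸ hB)

theorem lev_eq {n : ℕ} (h : Y.T Γ M A) (h' : Tys Y Γ A n) : lev (lv Y Γ) M = n :=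
  (key h).unique h'

theorem Tys.lev_eq {n : ℕ} (h : Tys Y Γ A n) : lev (lv Y Γ) A = n + 1 := by
  rcases h with ⟨s, rfl, rfl⟩ | h
  · rfl
  · exact Tier.lev_eq h (.inl ⟨n, rfl, rfl⟩)

theorem lev_type (h : Y.T Γ M A) : lev (lv Y Γ) A = lev (lv Y Γ) M + 1 := (key h).lev_eq

theorem lev_typed {s : ℕ} (h : Y.T Γ A (.sort s)) : lev (lv Y Γ) A = s + 1 :=
  Tys.lev_eq (.inr h)

theorem lev_step (h : Y.T Γ M A) (hs : Step M N) : lev (lv Y Γ) N = lev (lv Y Γ) M :=
  lev_eq (h.step hs) (key h)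

theorem lev_red (h : Y.T Γ M A) (hs : Red M N) : lev (lv Y Γ) N = lev (lv Y Γ) M :=
  lev_eq (h.red hs) (key h)

theorem lv_sub : ∀ {Γ : List (Tm ℕ)} {σ : ℕ → Tm ℕ} {Δ : List (Tm ℕ)}, Wf (chain Y.R Y.K) Y.E Γ →
    Sub (chain Y.R Y.K) Y.E Γ σ Δ → ∀ n, lev (lv Y Δ) (σ n) = lv Y Γ n := by
  intro Γ
  induction Γ with
  | nil =>
    intro σ Δ _ hs n
    rw [hs.2 n]
    show lv Y Δ (n + Δ.length) = lv Y [] n
    clear hs
    induction Δ with
    | nil => rfl
    | cons B Δ ih => exact ih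
  | cons A Γ ih =>
    intro σ Δ hw hs n
    cases hw with
    | cons hw hA =>
      cases n with
      | succ n => exact ih hw hs.1 n
      | zero =>
        have h1 := lev_type hs.2
        rw [lev_sub A _ _ _ (ih hw hs.1)] at h1
        show _ = lev (lv Y Γ) A - 1
        omega

/-- All levels are at most `K + 1`. -/
theorem lev_le (h : Y.T Γ M A) : lev (lv Y Γ) M ≤ Y.K + 1 := by
  induction h with
  | ax hp => obtain ⟨e, he⟩ := hp; dsimp only at e he; simp only [lev]; omega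
  | @gvar i A s he hA ih =>
    have := lev_typed hA
    have e : lev (lv Y []) (.var i) = s := congrArg Prod.snd he
    omega
  | @var Γ A s hA ih => simp only [lev, lv, cons_zero]; omega
  | weak _ _ i1 _ => rw [lv, lev_succ]; exact i1
  | prod _ _ _ _ i2 => exact i2
  | abs _ _ _ _ i1 _ => exact i1
  | app _ _ i1 _ => exact i1
  | conv _ _ _ i1 _ => exact i1

/-- Binders and applications use rules. -/
def WS (R : ℕ → ℕ → Prop) : (ℕ → ℕ) → Tm ℕ → Prop
  | _, .var _ => True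
  | _, .sort _ => True
  | L, .app f a => WS R L f ∧ WS R L a ∧ R (lev L a) (lev L f)
  | L, .lam A M => WS R L A ∧ WS R (cons (lev L A - 1) L) M ∧ 0 < lev L A ∧
      R (lev L A - 1) (lev (cons (lev L A - 1) L) M)
  | L, .pi A B => WS R L A ∧ WS R (cons (lev L A - 1) L) B ∧ 0 < lev L A ∧
      0 < lev (cons (lev L A - 1) L) B ∧ R (lev L A - 1) (lev (cons (lev L A - 1) L) B - 1)

theorem rule_pi {s : ℕ} (h : Y.T Γ (.pi A B) (.sort s)) :
    ∃ r, Y.T Γ A (.sort r) ∧ Y.T (A :: Γ) B (.sort s) ∧ Y.R r s := by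
  obtain ⟨r, s', t, hA, hB, hr, hc⟩ := h.gen_pi
  cases (conv_sort hc).trans hr.2
  exact ⟨r, hA, hB, hr.1⟩

theorem rule_lam (h : Y.T Γ (.lam A M) N) : ∃ B r, Y.T Γ A (.sort r) ∧ Y.T (A :: Γ) M B ∧
    Y.T (A :: Γ) B (.sort (lev (lv Y (A :: Γ)) M)) ∧
    Y.T Γ (.pi A B) (.sort (lev (lv Y (A :: Γ)) M)) ∧ Y.R r (lev (lv Y (A :: Γ)) M) ∧
    Conv N (.pi A B) := by
  obtain ⟨B, r, s, hA, hM, hp, hc⟩ := h.gen_lam
  obtain ⟨r', hA', hB, hR⟩ := rule_pi hp
  cases uniq_sort hA hA'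
  cases lev_eq hM (.inr hB)
  exact ⟨B, r, hA, hM, hB, hp, hR, hc⟩

theorem rule_app {f a : Tm ℕ} (h : Y.T Γ (.app f a) N) : ∃ A B, Y.T Γ f (.pi A B) ∧ Y.T Γ a A ∧
    Y.T Γ (.pi A B) (.sort (lev (lv Y Γ) f)) ∧ Y.T Γ A (.sort (lev (lv Y Γ) a)) ∧
    Y.T (A :: Γ) B (.sort (lev (lv Y Γ) f)) ∧ Y.R (lev (lv Y Γ) a) (lev (lv Y Γ) f) ∧
    Conv N (B.sub (Tm.one a)) := by
  obtain ⟨A, B, hf, ha, hc⟩ := h.gen_app
  have hp := (key hf).pi
  obtain ⟨r, hA, hB, hR⟩ := rule_pi hp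
  cases lev_eq ha (.inr hA)
  exact ⟨A, B, hf, ha, hp, hA, hB, hR, hc⟩

theorem ws : ∀ {M : Tm ℕ} {Γ : List (Tm ℕ)} {A : Tm ℕ}, Y.T Γ M A → WS Y.R (lv Y Γ) M := by
  intro M
  induction M with
  | var _ => exact fun _ => trivial
  | sort _ => exact fun _ => trivial
  | app f a i1 i2 =>
    intro Γ N h
    obtain ⟨A, B, hf, ha, -, -, -, hR, -⟩ := rule_app h
    exact ⟨i1 hf, i2 ha, hR⟩
  | lam C M i1 i2 =>
    intro Γ N h
    obtain ⟨B, r, hC, hM, -, -, hR, -⟩ := rule_lam h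
    have e := lev_typed hC
    refine ⟨i1 hC, i2 (Γ := C :: Γ) hM, by omega, ?_⟩
    rw [e, Nat.add_sub_cancel]
    have hlv : lv Y (C :: Γ) = cons r (lv Y Γ) := by rw [lv, e, Nat.add_sub_cancel]
    rwa [hlv] at hR
  | pi C D i1 i2 =>
    intro Γ N h
    obtain ⟨r, s, t, hC, hD, hr, -⟩ := h.gen_pi
    have e := lev_typed hC
    have e2 := lev_typed hD
    simp only [lv] at e2
    refine ⟨i1 hC, i2 (Γ := C :: Γ) hD, by omega, by omega, ?_⟩
    rw [e2, e, Nat.add_sub_cancel, Nat.add_sub_cancel]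
    exact hr.1

end Tier

end Vale.Agent.P340
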