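import Vale.Agent.P340.T.Values

/-!
# P340, tiered systems: the model for a missing rule `(k + 2, k + 1)`
-/

namespace Vale.Agent.P340

open Tm

namespace Tier

variable {Y : Sys} {k : ℕ}

theorem appV_lamV {s : Sh} {body : Val → Val} {va : Val} (h1 : va.1 = s)
    (h2 : (body ⟨s, dflt s⟩).1 = (body va).1) : appV (lamV s body) va = body va := by
  simp only [lamV, appV]
  rw [mk_get h1, h2]
  exact mk_get rfl

theorem appH_lamH {P : Tm ℕ → Prop} {V h : Tm ℕ} {body : Tm ℕ → Val} (hP : P h)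
    (h2 : (body V).1 = (body h).1) : appH (lamH P V body) h = body h := by
  simp only [lamH, appH]
  rw [if_pos hP, h2]
  exact mk_get rfl

/-- Values respect reduction. -/
theorem ev_step (ab : Above Y k) (h2 : ¬ Y.R (k + 2) (k + 1)) {M N : Tm ℕ} (hs : Step M N) :
    ∀ {Γ : List (Tm ℕ)} {X : Tm ℕ} (τ : ℕ → Tm ℕ) (ρ : ℕ → Val), Y.T Γ M X →
      lev (lv Y Γ) M = k + 1 → Inst Y Γ τ → RV Y k Γ τ ρ →
      ev Y k τ ρ (lv Y Γ) M = ev Y k τ ρ (lv Y Γ) N := by
  induction hs with
  | beta A M a =>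
    intro Γ X τ ρ h hl hi hv
    obtain ⟨A', B', hf, ha, -, -, -, hR, -⟩ := rule_app h
    obtain ⟨B, r, hC, hM, -, -, -, hc⟩ := rule_lam hf
    have ha' : Y.T Γ a A := .conv ha hC (conv_pi hc).1
    have er : lev (lv Y Γ) a = r := lev_eq ha' (.inr hC)
    have hl' : lev (lv Y (A :: Γ)) M = k + 1 := hl
    have hlam : lev (lv Y Γ) (.lam A M) = k + 1 := hl
    rw [hlam, er] at hR
    have hne : r ≠ k + 2 := fun e => h2 (e ▸ hR)
    have hle := Y.nd _ _ hR
    have hrT := hi.lev h.wf
    have haT : lev (lv Y []) (a.sub τ) = r := (lev_sub a τ _ _ hrT).trans er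
    rw [subst_zero, ev_one M a τ ρ _ er, ← lv_cons hC]
    simp only [ev, lev_typed hC, Nat.add_sub_cancel]
    rw [← lv_cons hC]
    by_cases hk : r = k + 1
    · have hva : (ev Y k τ ρ (lv Y Γ) a).1 = shape Y k τ A :=
        ev_shape ab h2 ha' τ ρ hi hv (er.trans hk)
      rw [if_pos (er.trans hk), if_pos (by omega : r + 1 = k + 2),
        appV_lamV hva]
      · exact ev_low hC hM hl' (by omega) _ _ τ _
      · refine ev_fst M _ ?_ ?_ hl' (fun _ _ => rfl) fun n _ => ?_
        · rw [lv_cons hC]; exact lev_cons (lev_junk Y r) hrT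
        · rw [lv_cons hC]; exact lev_cons (lev_junk Y r) hrT
        · cases n with
          | zero => exact hva.symm
          | succ n => rfl
    · have hsn : SN (a.sub τ) := (ab r (by omega) [] _ _ (ha'.sub hi) haT).1
      have hnt : Y.T [] (nf (a.sub τ)) (A.sub τ) := (ha'.sub hi).red (nf_spec hsn).1
      rw [if_neg (by rw [er]; exact hk), if_neg (by omega : ¬ r + 1 = k + 2),
        appH_lamH (P := fun h => Y.T [] h (A.sub τ)) hnt
          (ev_high hC hl' hne hi (lev_junk Y r) (lev_inst hC hi hnt) _)]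
      refine (ev_red ab h2 M _ hM hl' (τ := cons (a.sub τ) τ) ⟨hi, ha'.sub hi⟩ ⟨hi, hnt⟩
        fun n => ?_).symm.trans ?_
      · cases n with
        | zero => exact (nf_spec hsn).1
        | succ n => exact .refl
      · refine ev_congr M _ (ws hM) hl' (fun _ _ => rfl) fun n hn => ?_
        cases n with
        | zero => rw [lv_cons hC, cons_zero] at hn; exact absurd hn hk
        | succ n => rfl
  | @appL f f' a h1 ih =>
    intro Γ X τ ρ h hl hi hv
    obtain ⟨A, B, hf, -, -⟩ := h.gen_app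
    simp only [ev]
    rw [ih τ ρ hf hl hi hv]
  | @appR f a a' h1 ih =>
    intro Γ X τ ρ h hl hi hv
    obtain ⟨A, B, hf, ha, -, -, -, hR, -⟩ := rule_app h
    have hl' : lev (lv Y Γ) f = k + 1 := hl
    have hle := Y.nd _ _ hR
    simp only [ev, lev_step ha h1]
    split
    · rw [ih τ ρ ha ‹_› hi hv]
    · have hsn : SN (a'.sub τ) := (ab _ (by omega) [] _ _ ((ha.step h1).sub hi)
        ((lev_sub a' τ _ _ (hi.lev h.wf)).trans (lev_step ha h1))).1
      rw [nf_red (.single (h1.sub τ)) hsn]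
  | @lamL A A' M h1 _ =>
    intro Γ X τ ρ h hl hi hv
    obtain ⟨B, r, hA, hM, -⟩ := rule_lam h
    have hc : Conv A A' := .of_red (.single h1)
    simp only [ev, lev_step hA h1, lev_typed hA, Nat.add_sub_cancel]
    split
    · rename_i ha
      have hr1 : r = k + 1 := by omega
      subst hr1
      rw [shape_conv ab (.inr hA) (.inr (hA.step h1)) hi hc]
    · rw [lamH_congr (inst_iff (hA.sub hi) ((hA.step h1).sub hi) (hc.sub τ)) rfl fun _ _ => rfl]
  | @lamR A M M' h1 ih =>
    intro Γ X τ ρ h hl hi hv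
    obtain ⟨B, r, hA, hM, -, -, hR, -⟩ := rule_lam h
    have hl' : lev (lv Y (A :: Γ)) M = k + 1 := hl
    have hl2 : lev (lv Y (A :: Γ)) M' = k + 1 := (lev_step hM h1).trans hl'
    rw [hl'] at hR
    have hne : r ≠ k + 2 := fun e => h2 (e ▸ hR)
    have hM' := hM.step h1
    obtain ⟨V, hV⟩ := fresh hA hi
    have body : ∀ W, Y.T [] W (A.sub τ) → ∀ v : Val,
        (lev (lv Y Γ) A = k + 2 → v.1 = shape Y k τ A) →
        ev Y k (cons W τ) (cons v ρ) (lv Y (A :: Γ)) M =
          ev Y k (cons W τ) (cons v ρ) (lv Y (A :: Γ)) M' := fun W hW v hvv =>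
      ih _ _ hM hl' ⟨hi, hW⟩ (hv.cons hvv)
    simp only [ev, lev_typed hA, Nat.add_sub_cancel]
    rw [← lv_cons hA]
    split
    · have low : ∀ v : Val, v.1 = shape Y k τ A →
          ev Y k (cons (junk Y r) τ) (cons v ρ) (lv Y (A :: Γ)) M =
          ev Y k (cons (junk Y r) τ) (cons v ρ) (lv Y (A :: Γ)) M' := fun v hvv => by
        rw [ev_low hA hM hl' (by omega) (junk Y r) V τ, body V hV v fun _ => hvv,
          ev_low hA hM' hl2 (by omega) V (junk Y r) τ]
      simp only [lamV]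
      rw [low _ rfl]
      congr 1
      funext d
      rw [low _ rfl]
    · rename_i ha
      have hv' : lev (lv Y Γ) A = k + 2 → junkV.1 = shape Y k τ A := fun e =>
        absurd (lev_typed hA ▸ e) ha
      refine lamH_congr (fun _ => Iff.rfl) ?_ fun W hW => body W hW junkV hv'
      rw [ev_high hA hl' hne hi (lev_junk Y r) (lev_inst hA hi hV), body V hV junkV hv',
        ev_high hA hl2 hne hi (lev_inst hA hi hV) (lev_junk Y r)]
  | @piL A A' B h1 ih =>
    intro Γ X τ ρ h hl hi hv
    obtain ⟨r, s, t, hA, hB, -, -⟩ := h.gen_pi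
    have hc : Conv A A' := .of_red (.single h1)
    by_cases ha : lev (lv Y Γ) A = k + 1
    · simp only [ev, lev_step hA h1]
      rw [if_pos ha, if_pos ha, ih τ ρ hA ha hi hv]
    · simp only [ev, lev_step hA h1]
      rw [if_neg ha, if_neg ha]
      simp only [lev_typed hA, Nat.add_sub_cancel]
      split
      · rename_i ha2
        have hr1 : r = k + 1 := by omega
        subst hr1
        rw [shape_conv ab (.inr hA) (.inr (hA.step h1)) hi hc]
      · rw [allH_congr (inst_iff (hA.sub hi) ((hA.step h1).sub hi) (hc.sub τ)) fun _ _ => rfl]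
  | @piR A B B' h1 ih =>
    intro Γ X τ ρ h hl hi hv
    obtain ⟨r, s, t, hA, hB, -, -⟩ := h.gen_pi
    have hl' : lev (lv Y (A :: Γ)) B = k + 1 := hl
    have hl2 : lev (lv Y (A :: Γ)) B' = k + 1 := (lev_step hB h1).trans hl'
    obtain ⟨V, hV⟩ := fresh hA hi
    have body : ∀ W, Y.T [] W (A.sub τ) → ∀ v : Val,
        (lev (lv Y Γ) A = k + 2 → v.1 = shape Y k τ A) →
        ev Y k (cons W τ) (cons v ρ) (lv Y (A :: Γ)) B =
          ev Y k (cons W τ) (cons v ρ) (lv Y (A :: Γ)) B' := fun W hW v hvv =>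
      ih _ _ hB hl' ⟨hi, hW⟩ (hv.cons hvv)
    have low : r < k + 2 → ∀ v : Val, (lev (lv Y Γ) A = k + 2 → v.1 = shape Y k τ A) →
        ev Y k (cons (junk Y r) τ) (cons v ρ) (lv Y (A :: Γ)) B =
        ev Y k (cons (junk Y r) τ) (cons v ρ) (lv Y (A :: Γ)) B' := fun hlt v hvv => by
      rw [ev_low hA hB hl' hlt (junk Y r) V τ, body V hV v hvv,
        ev_low hA (hB.step h1) hl2 hlt V (junk Y r) τ]
    simp only [ev, lev_typed hA, Nat.add_sub_cancel]
    rw [← lv_cons hA]
    split
    · rw [low (by omega) junkV fun e => by rw [lev_typed hA] at e; omega]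
    · split
      · simp only [allV]
        congr 2
        funext d
        rw [low (by omega) _ fun _ => rfl]
      · rename_i ha
        rw [allH_congr (fun _ => Iff.rfl) fun W hW => body W hW junkV
          fun e => absurd (lev_typed hA ▸ e) ha]

/-- The candidate of a type. -/
noncomputable def J1 (Y : Sys) (k : ℕ) (η : (ℕ → Tm ℕ) × (ℕ → Val)) (Γ : List (Tm ℕ))
    (T : Tm ℕ) : Cand :=
  cand (ev Y k η.1 η.2 (lv Y Γ) T)

/-- Admissible environments. -/
def Ok1 (Y : Sys) (k : ℕ) (Γ : List (Tm ℕ)) (η : (ℕ → Tm ℕ) × (ℕ → Val)) : Prop :=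
  Inst Y Γ η.1 ∧ RV Y k Γ η.1 η.2

theorem cand_base (C : Cand) : cand (baseV C) = C := get_mk .base C

/-- Without `(k + 2, k + 1)`. -/
noncomputable def model1 (ab : Above Y k) (h2 : ¬ Y.R (k + 2) (k + 1)) : Model Y k where
  Env := (ℕ → Tm ℕ) × (ℕ → Val)
  Ok := Ok1 Y k
  tl := fun η => (fun n => η.1 (n + 1), fun n => η.2 (n + 1))
  J := J1 Y k
  inh := ⟨(Tm.var, fun i => ⟨shape Y k Tm.var (Y.g i).1, dflt _⟩),
    ⟨.nil, fun i => rfl⟩, fun i A e => congrArg (fun p : Tm ℕ × ℕ => shape Y k Tm.var p.1) e⟩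
  ext := fun {Γ A r η} hA hη => by
    obtain ⟨V, hV⟩ := fresh hA hη.1
    exact ⟨(cons V η.1, cons ⟨shape Y k η.1 A, dflt _⟩ η.2),
      ⟨⟨hη.1, hV⟩, hη.2.cons fun _ => rfl⟩, rfl⟩
  ok_tl := fun h => ⟨h.1.1, h.2.1⟩
  weak := fun {Γ A η T} _ _ => by
    simp only [J1, lv, ev_ren]; rfl
  conv := fun {Γ η T T'} hη hT hs => by
    rcases hT with ⟨s, rfl, -⟩ | hT
    · cases hs
    · exact congrArg cand (ev_step ab h2 hs η.1 η.2 hT (lev_typed hT) hη.1 hη.2)
  app := fun {Γ η A B a t u} hη hp ha ht hu hu' => by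
    obtain ⟨r, hA, hB, hR⟩ := rule_pi hp
    have hle := Y.nd _ _ hR
    have el := lev_eq ha (.inr hA)
    have eA := lev_typed hA
    simp only [J1] at ht hu ⊢
    rw [ev_one B a η.1 η.2 _ el, ← lv_cons hA]
    simp only [ev, eA, Nat.add_sub_cancel, cand_base] at ht
    rw [← lv_cons hA] at ht
    split at ht
    · rename_i hk
      rw [ev_congr B _ (ws hB) (lev_typed hB) (τ' := cons (junk Y r) η.1) (ρ' := cons junkV η.2)
        (cons_agree (p := (k + 2 ≤ ·)) (L := lv Y Γ) (x := r) (fun e => absurd e (by omega))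
          (fun _ _ => rfl) |> fun h n hn => h n (by rwa [← lv_cons hA]))
        (cons_agree (p := (· = k + 1)) (L := lv Y Γ) (x := r) (fun e => absurd e (by omega))
          (fun _ _ => rfl) |> fun h n hn => h n (by rwa [← lv_cons hA]))]
      exact ht u (hu (eA.trans hk))
    · rename_i hk
      rw [hu' (by rw [eA]; exact hk)]
      split at ht
      · rename_i hk2
        have hva : (ev Y k η.1 η.2 (lv Y Γ) a).1 = shape Y k η.1 A :=
          ev_shape ab h2 ha η.1 η.2 hη.1 hη.2 (el.trans (by omega))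
        have h1 := ht (get (shape Y k η.1 A) (ev Y k η.1 η.2 (lv Y Γ) a))
        simp only [mk_get hva] at h1
        rw [ev_low hA hB (lev_typed hB) (by omega) _ (junk Y r) η.1]
        exact h1
      · rename_i hk2
        have h1 := ht (a.sub η.1)
        simp only [if_pos (ha.sub hη.1)] at h1
        rw [ev_congr B _ (ws hB) (lev_typed hB) (τ' := cons (a.sub η.1) η.1)
          (ρ' := cons junkV η.2) (fun _ _ => rfl)
          (cons_agree (p := (· = k + 1)) (L := lv Y Γ) (x := r) (fun e => absurd e (by omega))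
            (fun _ _ => rfl) |> fun h n hn => h n (by rwa [← lv_cons hA]))]
        exact h1
  lam := fun {Γ η A B m} hη hp hm hh => by
    obtain ⟨r, hA, hB, hR⟩ := rule_pi hp
    have hle := Y.nd _ _ hR
    have eA := lev_typed hA
    obtain ⟨V, hV⟩ := fresh hA hη.1
    simp only [J1] at hh ⊢
    simp only [ev, eA, Nat.add_sub_cancel, cand_base]
    rw [← lv_cons hA]
    split
    · rename_i hk
      refine arrow_lam hm fun u hu => ?_
      rw [ev_low hA hB (lev_typed hB) (by omega) _ V η.1]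
      exact hh (cons V η.1, cons junkV η.2) ⟨⟨hη.1, hV⟩, hη.2.cons fun e => by omega⟩ rfl u
        (fun _ => hu) fun hn => absurd (eA.trans hk) hn
    · rename_i hk
      have hn : lev (lv Y Γ) A = k + 1 → False := fun e => hk (eA ▸ e)
      split
      · refine allApp_lam _ hm fun d => ?_
        beta_reduce
        rw [ev_low hA hB (lev_typed hB) (by omega) _ V η.1]
        exact hh (cons V η.1, cons ⟨_, d⟩ η.2) ⟨⟨hη.1, hV⟩, hη.2.cons fun _ => rfl⟩ rfl hole
          (fun e => (hn e).elim) fun _ => rfl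
      · rename_i hk2
        have key1 : ∀ W, Y.T [] W (A.sub η.1) → (cand (ev Y k (cons W η.1) (cons junkV η.2)
            (lv Y (A :: Γ)) B)).mem (m.sub (Tm.one hole)) := fun W hW =>
          hh (cons W η.1, cons junkV η.2)
            ⟨⟨hη.1, hW⟩, hη.2.cons fun e => absurd (eA ▸ e) hk2⟩ rfl hole
            (fun e => (hn e).elim) fun _ => rfl
        refine allApp_lam _ hm fun W => ?_
        beta_reduce
        split
        · exact key1 W ‹_›
        · exact Cand.sn _ (key1 V hV)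

end Tier

end Vale.Agent.P340
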