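import Vale.Agent.P340.T.ModelTN

/-!
# P340, tiered systems: the model for a missing rule `(k + 1, k + 1)`
-/

namespace Vale.Agent.P340

open Tm

namespace Tier

instance : Nonempty Cand := ⟨snc⟩

/-- Every constructor denotes a candidate. -/
def eval2 : (ℕ → Cand) → Tm Bool → Cand
  | ρ, .var n => ρ n
  | _, .sort _ => snc
  | ρ, .app f _ => eval2 ρ f
  | ρ, .lam _ m => eval2 (cons snc ρ) m
  | ρ, .pi a b => if isHole a then allApp (fun C : Cand => eval2 (cons C ρ) b)
      else arrow (eval2 ρ a) (eval2 (cons snc ρ) b)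

theorem eval2_ren : ∀ (t : Tm Bool) (ρ : ℕ → Cand) (r : ℕ → ℕ),
    eval2 ρ (t.ren r) = eval2 (fun n => ρ (r n)) t := by
  have hc : ∀ (C : Cand) (ρ : ℕ → Cand) (r : ℕ → ℕ),
      (fun n => cons C ρ (upr r n)) = cons C fun n => ρ (r n) := by
    intro C ρ r; funext n; cases n <;> rfl
  intro t
  induction t with
  | var n => intros; rfl
  | sort s => intros; rfl
  | app f a i1 _ => intro ρ r; exact i1 ρ r
  | lam a m _ i2 => intro ρ r; simp only [Tm.ren, eval2]; rw [i2, hc]
  | pi a b i1 i2 => intro ρ r; simp only [Tm.ren, eval2, isHole_ren, i1, i2, hc]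

theorem isHole_sk {j : ℕ} (L : ℕ → ℕ) (M : Tm ℕ) :
    isHole (sk j L M) = decide (lev L M ≠ j) := by
  by_cases h : lev L M = j
  · simp [h, isHole_false (sk_ne_hole h)]
  · simp [h, sk_eq_hole h, isHole]

theorem eval2_congr {j : ℕ} : ∀ (M : Tm ℕ) (L : ℕ → ℕ) {ρ ρ' : ℕ → Cand},
    (∀ n, L n = j → ρ n = ρ' n) → eval2 ρ (sk j L M) = eval2 ρ' (sk j L M) := by
  have hc : ∀ {C : Cand} {x : ℕ} {L : ℕ → ℕ} {ρ ρ' : ℕ → Cand},
      (∀ n, L n = j → ρ n = ρ' n) → ∀ n, cons x L n = j → cons C ρ n = cons C ρ' n := by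
    intro C x L ρ ρ' h n hn; cases n with
    | zero => rfl
    | succ n => exact h n hn
  intro M
  induction M with
  | var n =>
    intro L ρ ρ' h; simp only [sk]; split
    · exact h n ‹_›
    · rfl
  | sort s => intro L ρ ρ' _; simp only [sk]; split <;> rfl
  | app f a i1 _ =>
    intro L ρ ρ' h; simp only [sk]; split
    · exact i1 L h
    · rfl
  | lam A M _ i2 =>
    intro L ρ ρ' h; simp only [sk]; split
    · exact i2 _ (hc h)
    · rfl
  | pi A M i1 i2 =>
    intro L ρ ρ' h; simp only [sk]; split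
    · have e1 := i1 L h
      have e2 : ∀ C, eval2 (cons C ρ) (sk j (cons (lev L A - 1) L) M) =
          eval2 (cons C ρ') (sk j (cons (lev L A - 1) L) M) := fun C => i2 _ (hc h)
      simp only [eval2, e1, e2]
    · rfl

theorem eval2_sub {j : ℕ} : ∀ (M : Tm ℕ) (σ : ℕ → Tm ℕ) (L L' : ℕ → ℕ) (ρ : ℕ → Cand),
    (∀ n, lev L (σ n) = L' n) → eval2 ρ (sk j L (M.sub σ)) =
      eval2 (fun n => eval2 ρ (sk j L (σ n))) (sk j L' M) := by
  have hup : ∀ (A : Tm ℕ) (x : ℕ) (σ : ℕ → Tm ℕ) (L L' : ℕ → ℕ) (ρ : ℕ → Cand) (C : Cand),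
      eval2 (fun n => eval2 (cons C ρ) (sk j (cons x L) (Tm.up σ n))) (sk j (cons x L') A) =
        eval2 (cons C fun n => eval2 ρ (sk j L (σ n))) (sk j (cons x L') A) := by
    intro A x σ L L' ρ C
    refine eval2_congr A _ fun n hn => ?_
    cases n with
    | zero =>
      show eval2 (cons C ρ) (sk j (cons x L) (.var 0)) = C
      rw [show sk j (cons x L) (Tm.var 0) = Tm.var 0 from if_pos hn]; rfl
    | succ n =>
      simp only [Tm.up, cons_succ, sk_succ, eval2_ren]
  intro M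
  induction M with
  | var n =>
    intro σ L L' ρ h
    by_cases hn : L' n = j
    · simp only [sk, if_pos hn, Tm.sub]; rfl
    · simp only [sk, if_neg hn, Tm.sub]; rw [sk_eq_hole (by rw [h n]; exact hn)]; rfl
  | sort s => intro σ L L' ρ _; simp only [sk, Tm.sub]; split <;> rfl
  | app f a i1 _ =>
    intro σ L L' ρ h; simp only [sk, Tm.sub, lev_sub f σ L L' h]; split
    · exact i1 σ L L' ρ h
    · rfl
  | lam A M _ i2 =>
    intro σ L L' ρ h
    simp only [sk, Tm.sub, lev_sub A σ L L' h, lev_sub M _ _ _ (lev_up h (lev L' A - 1))]; split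
    · simp only [eval2]; rw [i2 _ _ _ _ (lev_up h _), hup]
    · rfl
  | pi A M i1 i2 =>
    intro σ L L' ρ h
    simp only [sk, Tm.sub, lev_sub A σ L L' h, lev_sub M _ _ _ (lev_up h (lev L' A - 1))]; split
    · simp only [eval2, isHole_sk, lev_sub A σ L L' h, i1 σ L L' ρ h,
        i2 _ _ _ _ (lev_up h (lev L' A - 1)), hup]
    · rfl

theorem eval2_one {j x : ℕ} {L : ℕ → ℕ} (M N : Tm ℕ) (ρ : ℕ → Cand) (h : lev L N = x) :
    eval2 ρ (sk j L (M.sub (Tm.one N))) =
      eval2 (cons (eval2 ρ (sk j L N)) ρ) (sk j (cons x L) M) := by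
  rw [eval2_sub M _ L (cons x L) ρ (fun n => by cases n with
    | zero => exact h
    | succ n => rfl)]
  refine eval2_congr M _ fun n hn => ?_
  cases n with
  | zero => rfl
  | succ n => simp only [Tm.one, cons_succ, sk, if_pos (show L n = j from hn)]; rfl

variable {Y : Sys} {k : ℕ}

theorem eval2_step (h1 : ¬ Y.R (k + 1) (k + 1)) {M N : Tm ℕ} (hs : Step M N) :
    ∀ {Γ : List (Tm ℕ)} {X : Tm ℕ} (ρ : ℕ → Cand), Y.T Γ M X →
      eval2 ρ (sk (k + 1) (lv Y Γ) M) = eval2 ρ (sk (k + 1) (lv Y Γ) N) := by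
  induction hs with
  | beta A M a =>
    intro Γ X ρ h
    by_cases hk : lev (lv Y Γ) (.app (.lam A M) a) = k + 1
    · obtain ⟨-, -, -, -, -, -, -, hR, -⟩ := rule_app h
      have hk' : lev (cons (lev (lv Y Γ) A - 1) (lv Y Γ)) M = k + 1 := hk
      rw [subst_zero, eval2_one M a ρ (redex h)]
      simp only [sk, lev, if_pos hk', eval2]
      refine eval2_congr M _ fun n hn => ?_
      cases n with
      | zero =>
        rw [show lev (lv Y Γ) (Tm.lam A M) = k + 1 from hk', redex h,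
          show lev (lv Y Γ) A - 1 = k + 1 from hn] at hR
        exact absurd hR h1
      | succ n => rfl
    · rw [sk_eq_hole hk, sk_eq_hole (by rw [lev_step h (.beta A M a)]; exact hk)]
  | @appL f f' a h' ih =>
    intro Γ X ρ h
    obtain ⟨A, B, hf, -, -⟩ := h.gen_app
    simp only [sk, lev_step hf h']
    split
    · exact ih ρ hf
    · rfl
  | @appR f a a' h' _ =>
    intro Γ X ρ h
    simp only [sk]
    split <;> rfl
  | @lamL A A' M h' _ =>
    intro Γ X ρ h
    obtain ⟨B, r, s, hA, -⟩ := h.gen_lam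
    simp only [sk, lev_step hA h']
  | @lamR A M M' h' ih =>
    intro Γ X ρ h
    obtain ⟨B, r, s, -, hM, -⟩ := h.gen_lam
    have e1 := lev_step hM h'
    have e2 := ih (cons snc ρ) hM
    simp only [lv] at e1 e2
    simp only [sk, e1]
    split
    · exact e2
    · rfl
  | @piL A A' B h' ih =>
    intro Γ X ρ h
    obtain ⟨r, s, t, hA, -⟩ := h.gen_pi
    have e1 := ih ρ hA
    simp only [sk, lev_step hA h']
    split
    · simp only [eval2, isHole_sk, lev_step hA h', e1]
    · rfl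
  | @piR A M M' h' ih =>
    intro Γ X ρ h
    obtain ⟨r, s, t, -, hM, -⟩ := h.gen_pi
    have e1 := lev_step hM h'
    have e2 := fun C => ih (cons C ρ) hM
    simp only [lv] at e1 e2
    simp only [sk, e1]
    split
    · simp only [eval2, e2]
    · rfl

theorem eval2_pi {Γ : List (Tm ℕ)} {A B : Tm ℕ}
    (hp : Y.T Γ (.pi A B) (.sort k)) (ρ : ℕ → Cand) :
    eval2 ρ (sk (k + 1) (lv Y Γ) (.pi A B)) =
      if lev (lv Y Γ) A = k + 1 then arrow (eval2 ρ (sk (k + 1) (lv Y Γ) A))
          (eval2 (cons snc ρ) (sk (k + 1) (lv Y (A :: Γ)) B))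
        else allApp fun C : Cand => eval2 (cons C ρ) (sk (k + 1) (lv Y (A :: Γ)) B) := by
  obtain ⟨r, hA, hB, hR⟩ := rule_pi hp
  have hb : lev (cons (lev (lv Y Γ) A - 1) (lv Y Γ)) B = k + 1 := lev_typed hB
  simp only [sk, if_pos hb, eval2, isHole_sk, lv]
  by_cases ha : lev (lv Y Γ) A = k + 1 <;> simp [ha]

/-- Without `(k + 1, k + 1)`. -/
noncomputable def model2 (h1 : ¬ Y.R (k + 1) (k + 1)) : Model Y k where
  Env := ℕ → Cand
  Ok := fun _ _ => True
  tl := fun ρ n => ρ (n + 1)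
  J := fun ρ Γ T => eval2 ρ (sk (k + 1) (lv Y Γ) T)
  inh := ⟨fun _ => snc, trivial⟩
  ext := fun {Γ A r η} _ _ => ⟨cons snc η, trivial, rfl⟩
  ok_tl := fun _ => trivial
  weak := fun _ _ => by rw [lv, sk_succ, eval2_ren]
  conv := fun {Γ η T T'} _ hT hs => by
    rcases hT with ⟨s, rfl, -⟩ | hT
    · cases hs
    · exact eval2_step h1 hs η hT
  app := fun {Γ η A B a t u} _ hp ha ht hu hu' => by
    obtain ⟨r, hA, hB, hR⟩ := rule_pi hp
    have el := lev_eq ha (.inr hA)
    have e2 : lv Y (A :: Γ) = cons r (lv Y Γ) := by rw [lv, lev_typed hA, Nat.add_sub_cancel]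
    rw [eval2_pi hp] at ht
    rw [eval2_one B a η el, ← e2]
    split at ht
    · rename_i hl
      have hr : r = k := by rw [lev_typed hA] at hl; omega
      rw [eval2_congr B (lv Y (A :: Γ)) (ρ' := cons snc η) fun n hn => ?_]
      · exact ht u (hu hl)
      · cases n with
        | zero => rw [e2, cons_zero, hr] at hn; omega
        | succ n => rfl
    · rw [hu' ‹_›]; exact ht _
  lam := fun {Γ η A B m} _ hp hm hh => by
    rw [eval2_pi hp]
    split
    · exact arrow_lam hm fun u hu =>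
        hh (cons snc η) trivial rfl u (fun _ => hu) fun hn => absurd ‹_› hn
    · exact allApp_lam _ hm fun C =>
        hh (cons C η) trivial rfl hole (fun he => absurd he ‹_›) fun _ => rfl

end Tier

end Vale.Agent.P340
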