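import Vale.Agent.P340.T.Fund

/-!
# P340, tiered systems: the models for a missing rule `(k, k)` or `(k + 1, k)`
-/

namespace Vale.Agent.P340

open Tm

namespace Tier

variable {Y : Sys} {k : ℕ}

/-- `stars n`: applications to `n` invisible arguments are strongly normalizing. -/
def stars : ℕ → Cand
  | 0 => snc
  | n + 1 => allApp fun _ : Unit => stars n

/-- Any number of invisible arguments. -/
def cstar : Cand where
  mem := fun t => ∀ n, (stars n).mem t
  sn := fun h => h 0
  step := fun h hs n => (stars n).step (h n) hs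
  neu := fun hn h n => (stars n).neu hn fun t ht => h t ht n

theorem cstar_app {t : Tm Bool} (h : cstar.mem t) : cstar.mem (.app t hole) :=
  fun n => h (n + 1) ()

theorem cstar_lam {m : Tm Bool} (hm : SN m) (h : cstar.mem (m.sub (Tm.one hole))) :
    cstar.mem (.lam hole m) := fun n => by
  cases n with
  | zero => exact SN.lam (.normal (normal_sort _)) hm
  | succ n => exact allApp_lam _ hm fun _ => h n

theorem dom_ne {Γ : List (Tm ℕ)} {A B : Tm ℕ} {j : ℕ} (h : Y.T Γ (.pi A B) (.sort k))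
    (hj : ¬ Y.R j k) : lev (lv Y Γ) A ≠ j + 1 := by
  obtain ⟨r, hA, -, hR⟩ := rule_pi h
  intro e
  rw [lev_typed hA] at e
  exact hj (Nat.succ.inj e ▸ hR)

/-- Without `(k, k)`. -/
def modelTriv (h : ¬ Y.R k k) : Model Y k where
  Env := Unit
  Ok := fun _ _ => True
  tl := id
  J := fun _ _ _ => cstar
  inh := ⟨(), trivial⟩
  ext := fun _ _ => ⟨(), trivial, rfl⟩
  ok_tl := fun _ => trivial
  weak := fun _ _ => rfl
  conv := fun _ _ _ => rfl
  app := fun _ hp _ ht _ hu => by rw [hu (dom_ne hp h)]; exact cstar_app ht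
  lam := fun _ hp hm hh => by
    refine cstar_lam hm (hh () trivial rfl hole ?_ fun _ => rfl)
    exact fun e => absurd e (dom_ne hp h)

/-- The invisible marker, as a test. -/
def isHole : Tm Bool → Bool
  | .sort true => true
  | _ => false

theorem isHole_false {t : Tm Bool} (h : t ≠ hole) : isHole t = false := by
  match t with
  | .sort true => exact absurd rfl h
  | .sort false => rfl
  | .var _ | .app _ _ | .lam _ _ | .pi _ _ => rfl

theorem isHole_ren (t : Tm Bool) (r : ℕ → ℕ) : isHole (t.ren r) = isHole t := by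
  match t with
  | .sort true => rfl
  | .sort false => rfl
  | .var _ | .app _ _ | .lam _ _ | .pi _ _ => rfl

/-- The meaning of a normal skeleton of a type. -/
def sem : Tm Bool → Cand
  | .pi a b => if isHole a then allApp (fun _ : Unit => sem b) else arrow (sem a) (sem b)
  | _ => snc

theorem sem_ren : ∀ (t : Tm Bool) (r : ℕ → ℕ), sem (t.ren r) = sem t
  | .var _, _ => rfl
  | .sort _, _ => rfl
  | .app _ _, _ => rfl
  | .lam _ _, _ => rfl
  | .pi a b, r => by simp only [Tm.ren, sem, isHole_ren, sem_ren a, sem_ren b]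

/-- The candidate of a type, when `(k + 1, k)` is missing. -/
noncomputable def J3 (Y : Sys) (k : ℕ) (Γ : List (Tm ℕ)) (T : Tm ℕ) : Cand :=
  sem (nf (sk (k + 1) (lv Y Γ) T))

theorem J3_one (ab : Above Y k) (h : ¬ Y.R (k + 1) k) {Γ : List (Tm ℕ)} {A B a : Tm ℕ}
    (hp : Y.T Γ (.pi A B) (.sort k)) (ha : Y.T Γ a A) :
    J3 Y k Γ (B.sub (Tm.one a)) = J3 Y k (A :: Γ) B := by
  obtain ⟨r, hA, hB, hR⟩ := rule_pi hp
  have e := lev_eq ha (.inr hA)
  have e2 : lv Y (A :: Γ) = cons r (lv Y Γ) := by rw [lv, lev_typed hA, Nat.add_sub_cancel]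
  have sB := (Tys.sn (.inr hB) ab le_rfl).2
  unfold J3
  rw [sk_one B a e, ← e2, sk_congr B (lv Y (A :: Γ)) (σ' := fun n => .var (n - 1)) (fun n hn => ?_),
    sub_var_comp, nf_ren sB, sem_ren]
  cases n with
  | zero => exact absurd (by rw [e2] at hn; exact hn : r = k + 1) fun e => h (e ▸ hR)
  | succ n => rfl

theorem J3_pi (ab : Above Y k) {Γ : List (Tm ℕ)} {A B : Tm ℕ} (hp : Y.T Γ (.pi A B) (.sort k)) :
    J3 Y k Γ (.pi A B) = if lev (lv Y Γ) A = k + 1 then arrow (J3 Y k Γ A) (J3 Y k (A :: Γ) B)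
      else allApp fun _ : Unit => J3 Y k (A :: Γ) B := by
  obtain ⟨r, hA, hB, hR⟩ := rule_pi hp
  have hb : lev (cons (lev (lv Y Γ) A - 1) (lv Y Γ)) B = k + 1 := lev_typed hB
  have sB := (Tys.sn (.inr hB) ab le_rfl).2
  have sA : SN (sk (k + 1) (lv Y Γ) A) := by
    by_cases ha : lev (lv Y Γ) A = k + 1
    · exact (ab (k + 1) (by omega) _ _ _ hA ha).2
    · rw [sk_eq_hole ha]; exact .normal (normal_sort _)
  unfold J3
  simp only [sk, if_pos hb]
  rw [nf_pi sA (show SN (sk (k + 1) (cons _ (lv Y Γ)) B) from sB)]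
  by_cases ha : lev (lv Y Γ) A = k + 1
  · have hr : r = k := by rw [lev_typed hA] at ha; omega
    subst hr
    simp only [sem, isHole_false (nf_ne_hole (.inr hA) ab le_rfl), if_pos ha, lv,
      Bool.false_eq_true, if_false]
  · rw [if_neg ha, sk_eq_hole ha, nf_normal (normal_sort _)]
    simp only [sem, isHole, lv, if_true]

/-- Without `(k + 1, k)`. -/
noncomputable def model3 (ab : Above Y k) (h : ¬ Y.R (k + 1) k) : Model Y k where
  Env := Unit
  Ok := fun _ _ => True
  tl := id
  J := fun _ Γ T => J3 Y k Γ T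
  inh := ⟨(), trivial⟩
  ext := fun _ _ => ⟨(), trivial, rfl⟩
  ok_tl := fun _ => trivial
  weak := fun _ hT => by
    unfold J3
    rw [lv, sk_succ, nf_ren (hT.sn ab le_rfl).2, sem_ren]
  conv := fun _ hT hs => by
    unfold J3
    rw [nf_sk_conv hT (hT.step hs) ab le_rfl (.of_red (.single hs))]
  app := fun {Γ η A B a t u} _ hp ha ht hu hu' => by
    rw [J3_one ab h hp ha]
    rw [J3_pi ab hp] at ht
    split at ht
    · exact ht u (hu ‹_›)
    · rw [hu' ‹_›]; exact ht ()
  lam := fun {Γ η A B m} _ hp hm hh => by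
    rw [J3_pi ab hp]
    split
    · exact arrow_lam hm fun u hu => hh () trivial rfl u (fun _ => hu) fun hn => absurd ‹_› hn
    · exact allApp_lam _ hm fun _ => hh () trivial rfl hole (fun he => absurd he ‹_›) fun _ => rfl

end Tier

end Vale.Agent.P340
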