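import Vale.Agent.P340.T.Check
import Vale.Agent.P340.T.Judg

/-!
# P340, tiered systems: a copy of U-minus destroys weak normalization
-/

namespace Vale.Agent.P340

open Tm

universe u

namespace Tier

theorem paradox_check : paradoxOk = true := by decide +kernel

theorem paradox_typed : Derives uSpec [.sort 0] paradox (.var 0) := by
  have hw : UWf [.sort 0] := .cons .nil (.ax' (s := 0) (t := 1) ⟨by omega, rfl⟩)
  have h := paradox_check
  unfold paradoxOk at h
  split at h
  · rename_i T e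
    have h1 := infer_sound 80 hw e
    have h2 : Derives uSpec [.sort 0] (.var 0) (.sort 0) :=
      .variable' (Γ := []) (.ax' (s := 0) (t := 1) ⟨by omega, rfl⟩)
    refine .conversion h1 h2 (betaEq_red ?_)
    have := same_eq h
    exact this ▸ reduce_red 80 T
  · cases h

variable {S : Type u} {P : Spec S}

theorem head_var {s : S} {A : Tm S} {k : ℕ} (h : Look noGlobals [Tm.sort s] k A) :
    k = 0 ∧ A = .sort s := by
  cases h with
  | here => exact ⟨rfl, rfl⟩
  | there h => cases h with | glob he => exact he.elim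

theorem normal_app {s : S} : ∀ {f a T : Tm S}, (Tm.app f a).Normal →
    ¬ H P noGlobals [.sort s] (.app f a) T := by
  intro f
  induction f with
  | var k =>
    intro a T _ h
    obtain ⟨A, B, hf, -, -⟩ := h.gen_app
    obtain ⟨C, hl, hc⟩ := hf.gen_var
    rw [(head_var hl).2] at hc
    exact not_conv_sort_pi hc.symm
  | sort t =>
    intro a T _ h
    obtain ⟨A, B, hf, -, -⟩ := h.gen_app
    obtain ⟨t', -, hc⟩ := hf.gen_sort
    exact not_conv_sort_pi hc.symm
  | app g b i1 _ =>
    intro a T hn h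
    obtain ⟨A, B, hf, -, -⟩ := h.gen_app
    exact i1 (fun N hs => hn _ (.appL a hs)) hf
  | lam C M _ _ => exact fun {a T} hn _ => hn _ (.beta C M a)
  | pi C D _ _ =>
    intro a T _ h
    obtain ⟨A, B, hf, -, -⟩ := h.gen_app
    obtain ⟨r, t, u, -, -, -, hc⟩ := hf.gen_pi
    exact not_conv_sort_pi hc.symm

theorem no_normal_proof {s : S} {N : Tm S} (hn : N.Normal) :
    ¬ H P noGlobals [.sort s] N (.var 0) := by
  intro h
  cases N with
  | var k =>
    obtain ⟨A, hl, hc⟩ := h.gen_var
    rw [(head_var hl).2] at hc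
    exact not_conv_sort_var hc.symm
  | sort t =>
    obtain ⟨u, -, hc⟩ := h.gen_sort
    exact not_conv_sort_var hc.symm
  | app f a => exact normal_app hn h
  | lam A M =>
    obtain ⟨B, r, t, -, -, -, hc⟩ := h.gen_lam
    exact not_conv_var_pi hc
  | pi A B =>
    obtain ⟨r, t, u, -, -, -, hc⟩ := h.gen_pi
    exact not_conv_sort_var hc.symm

/-- A specification with three consecutive sorts and the four rules is not weakly normalizing. -/
theorem not_wn (P : Spec S) (g : ℕ → S) (h0 : (g 0, g 1) ∈ P.ax) (h1 : (g 1, g 2) ∈ P.ax)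
    (r00 : (g 0, g 0, g 0) ∈ P.rule) (r10 : (g 1, g 0, g 0) ∈ P.rule)
    (r11 : (g 1, g 1, g 1) ∈ P.rule) (r21 : (g 2, g 1, g 1) ∈ P.rule) :
    ¬ P.WeaklyNormalizing := by
  intro hw
  have hd : Derives P [Tm.sort (g 0)] (paradox.map g) (.var 0) := by
    refine (paradox_typed.map g).mono ?_ ?_
    · rintro _ ⟨⟨a, b⟩, ⟨ha, hb⟩, rfl⟩
      dsimp only at ha hb ⊢
      subst hb
      match a, ha with
      | 0, _ => exact h0
      | 1, _ => exact h1
    · rintro _ ⟨⟨a, b, c⟩, ⟨hr, hc⟩, rfl⟩
      dsimp only at hr hc ⊢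
      subst hc
      simp only [uRule, Bool.or_eq_true, Bool.and_eq_true, beq_iff_eq] at hr
      rcases hr with ((⟨rfl, rfl⟩ | ⟨rfl, rfl⟩) | ⟨rfl, rfl⟩) | ⟨rfl, rfl⟩ <;> assumption
  obtain ⟨N, hred, hn⟩ := hw _ ⟨_, _, .inl hd⟩
  exact no_normal_proof hn ((hd.toH noGlobals).red hred)

end Tier

end Vale.Agent.P340
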