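import Vale.Agent.P340.T.ModelII

/-!
# P340, tiered systems: shapes of kinds and values of constructors
-/

namespace Vale.Agent.P340

open Tm

namespace Tier

/-- Shapes of kinds. -/
inductive Sh : Type
  | base
  | arr (a b : Sh)
  | arrH (b : Sh)
  deriving DecidableEq

/-- Values of a shape. -/
def D : Sh → Type
  | .base => Cand
  | .arr a b => D a → D b
  | .arrH b => Tm ℕ → D b

/-- A value of each shape. -/
def dflt : ∀ s, D s
  | .base => snc
  | .arr _ b => fun _ => dflt b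
  | .arrH b => fun _ => dflt b

/-- Values with their shapes. -/
abbrev Val : Type := Σ s, D s

/-- Read a value at a shape. -/
def get (s : Sh) (v : Val) : D s := if h : v.1 = s then h ▸ v.2 else dflt s

/-- An unused value. -/
def junkV : Val := ⟨.base, snc⟩

theorem get_mk (s : Sh) (d : D s) : get s ⟨s, d⟩ = d := dif_pos rfl

theorem mk_get {s : Sh} {v : Val} (h : v.1 = s) : (⟨s, get s v⟩ : Val) = v := by
  subst h; exact congrArg (Sigma.mk v.1) (get_mk v.1 v.2)

theorem mk_congr {s s' : Sh} {v : Val} (h : s = s') : (⟨s, get s v⟩ : Val) = ⟨s', get s' v⟩ := by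
  subst h; rfl

/-- The shape of the result of an application. -/
def cod : Sh → Sh
  | .base => .base
  | .arr _ b => b
  | .arrH b => b

/-- Application to a constructor. -/
def appV : Val → Val → Val
  | ⟨.arr s b, F⟩, a => ⟨b, F (get s a)⟩
  | ⟨s, _⟩, _ => ⟨cod s, dflt _⟩

/-- Application to an argument of higher level. -/
def appH : Val → Tm ℕ → Val
  | ⟨.arrH b, F⟩, h => ⟨b, F h⟩
  | ⟨s, _⟩, _ => ⟨cod s, dflt _⟩

theorem appV_fst : ∀ f a : Val, (appV f a).1 = cod f.1
  | ⟨.arr _ _, _⟩, _ => rfl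
  | ⟨.base, _⟩, _ => rfl
  | ⟨.arrH _, _⟩, _ => rfl

theorem appH_fst : ∀ (f : Val) (h : Tm ℕ), (appH f h).1 = cod f.1
  | ⟨.arr _ _, _⟩, _ => rfl
  | ⟨.base, _⟩, _ => rfl
  | ⟨.arrH _, _⟩, _ => rfl

/-- The shape read off a normal skeleton of a kind. -/
def sh : Tm Bool → Sh
  | .pi a b => if isHole a then .arrH (sh b) else .arr (sh a) (sh b)
  | _ => .base

theorem sh_ren : ∀ (t : Tm Bool) (r : ℕ → ℕ), sh (t.ren r) = sh t
  | .var _, _ => rfl
  | .sort _, _ => rfl
  | .app _ _, _ => rfl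
  | .lam _ _, _ => rfl
  | .pi a b, r => by simp only [Tm.ren, sh, isHole_ren, sh_ren a, sh_ren b]

instance (s : Sh) : Nonempty (D s) := ⟨dflt s⟩

variable (Y : Sys) (k : ℕ)

/-- The shape of a kind under an instantiation. -/
noncomputable def shape (τ : ℕ → Tm ℕ) (A : Tm ℕ) : Sh :=
  sh (nf (sk (k + 2) (lv Y []) (A.sub τ)))

/-- A global variable of level `r`. -/
noncomputable def junk (r : ℕ) : Tm ℕ := .var (Function.surjInv Y.surj (.sort 0, r))

theorem lev_junk (r : ℕ) : lev (lv Y []) (junk Y r) = r :=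
  congrArg Prod.snd (Function.surjInv_eq Y.surj (Tm.sort 0, r))

instance : Nonempty (Tm ℕ) := ⟨.var 0⟩

/-- The candidate of a value. -/
def cand (v : Val) : Cand := get .base v

/-- A type as a value. -/
def baseV (C : Cand) : Val := ⟨.base, C⟩

open Classical in
/-- The value of an abstraction over arguments of higher level. -/
noncomputable def lamH (P : Tm ℕ → Prop) (V : Tm ℕ) (body : Tm ℕ → Val) : Val :=
  ⟨.arrH (body V).1, fun h => if P h then get (body V).1 (body h) else dflt (body V).1⟩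

/-- The value of an abstraction over constructors. -/
noncomputable def lamV (s : Sh) (body : Val → Val) : Val :=
  ⟨.arr s (body ⟨s, dflt s⟩).1, fun d => get (body ⟨s, dflt s⟩).1 (body ⟨s, d⟩)⟩

/-- Quantification over constructors. -/
def allV (s : Sh) (body : Val → Val) : Cand :=
  allApp fun d : D s => cand (body ⟨s, d⟩)

open Classical in
/-- Quantification over instances of higher level. -/
noncomputable def allH (P : Tm ℕ → Prop) (body : Tm ℕ → Val) : Cand :=
  allApp fun V : Tm ℕ => if P V then cand (body V) else snc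

/-- The value of a constructor of level `k + 1`. -/
noncomputable def ev : (ℕ → Tm ℕ) → (ℕ → Val) → (ℕ → ℕ) → Tm ℕ → Val
  | _, ρ, _, .var n => ρ n
  | _, _, _, .sort _ => junkV
  | τ, ρ, L, .app f a =>
    if lev L a = k + 1 then appV (ev τ ρ L f) (ev τ ρ L a)
    else appH (ev τ ρ L f) (nf (a.sub τ))
  | τ, ρ, L, .lam A M =>
    if lev L A = k + 2 then
      lamV (shape Y k τ A) fun v =>
        ev (cons (junk Y (lev L A - 1)) τ) (cons v ρ) (cons (lev L A - 1) L) M
    else
      lamH (fun h => Y.T [] h (A.sub τ)) (junk Y (lev L A - 1)) fun V =>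
        ev (cons V τ) (cons junkV ρ) (cons (lev L A - 1) L) M
  | τ, ρ, L, .pi A B =>
    baseV (if lev L A = k + 1 then
        arrow (cand (ev τ ρ L A))
          (cand (ev (cons (junk Y (lev L A - 1)) τ) (cons junkV ρ) (cons (lev L A - 1) L) B))
      else if lev L A = k + 2 then
        allV (shape Y k τ A) fun v =>
          ev (cons (junk Y (lev L A - 1)) τ) (cons v ρ) (cons (lev L A - 1) L) B
      else
        allH (fun h => Y.T [] h (A.sub τ)) fun V =>
          ev (cons V τ) (cons junkV ρ) (cons (lev L A - 1) L) B)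

variable {Y k}

theorem cons_upr {α : Type*} (x : α) (f : ℕ → α) (r : ℕ → ℕ) :
    (fun n => cons x f (upr r n)) = cons x fun n => f (r n) := by
  funext n; cases n <;> rfl

theorem ev_ren : ∀ (M : Tm ℕ) (τ : ℕ → Tm ℕ) (ρ : ℕ → Val) (L : ℕ → ℕ) (r : ℕ → ℕ),
    ev Y k τ ρ L (M.ren r) = ev Y k (fun n => τ (r n)) (fun n => ρ (r n)) (fun n => L (r n)) M := by
  intro M
  induction M with
  | var n => intros; rfl
  | sort s => intros; rfl
  | app f a i1 i2 => intros; simp only [Tm.ren, ev, lev_ren, i1, i2, sub_ren]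
  | lam A M _ i2 => intros; simp only [Tm.ren, ev, lev_ren, i2, cons_upr, Tm.sub_ren, shape]
  | pi A B i1 i2 =>
    intros; simp only [Tm.ren, ev, lev_ren, i1, i2, cons_upr, Tm.sub_ren, shape]

theorem ev_sub : ∀ (M : Tm ℕ) (σ : ℕ → Tm ℕ) (τ : ℕ → Tm ℕ) (ρ : ℕ → Val) (L L' : ℕ → ℕ),
    (∀ n, lev L (σ n) = L' n) → ev Y k τ ρ L (M.sub σ) =
      ev Y k (fun n => (σ n).sub τ) (fun n => ev Y k τ ρ L (σ n)) L' M := by
  have e1 : ∀ (V : Tm ℕ) (τ σ : ℕ → Tm ℕ),
      (fun n => (Tm.up σ n).sub (cons V τ)) = cons V fun n => (σ n).sub τ := by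
    intro V τ σ; funext n; cases n with
    | zero => rfl
    | succ n => exact ren_succ_cons _ _ _
  have e2 : ∀ (V : Tm ℕ) (v : Val) (x : ℕ) (τ σ : ℕ → Tm ℕ) (ρ : ℕ → Val) (L : ℕ → ℕ),
      (fun n => ev Y k (cons V τ) (cons v ρ) (cons x L) (Tm.up σ n)) =
        cons v fun n => ev Y k τ ρ L (σ n) := by
    intro V v x τ σ ρ L; funext n; cases n with
    | zero => rfl
    | succ n => exact ev_ren _ _ _ _ _
  intro M
  induction M with
  | var n => intros; rfl
  | sort s => intros; rfl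
  | app f a i1 i2 =>
    intro σ τ ρ L L' h
    simp only [Tm.sub, ev, lev_sub a σ L L' h, i1 σ τ ρ L L' h, i2 σ τ ρ L L' h, Tm.sub_sub]
  | lam A M _ i2 =>
    intro σ τ ρ L L' h
    simp only [Tm.sub, ev, lev_sub A σ L L' h, i2 _ _ _ _ _ (lev_up h (lev L' A - 1)), e1, e2,
      shape, Tm.sub_sub]
  | pi A B i1 i2 =>
    intro σ τ ρ L L' h
    simp only [Tm.sub, ev, lev_sub A σ L L' h, i1 σ τ ρ L L' h,
      i2 _ _ _ _ _ (lev_up h (lev L' A - 1)), e1, e2, shape, Tm.sub_sub]

theorem ev_one {x : ℕ} (M a : Tm ℕ) (τ : ℕ → Tm ℕ) (ρ : ℕ → Val) (L : ℕ → ℕ)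
    (h : lev L a = x) : ev Y k τ ρ L (M.sub (Tm.one a)) =
      ev Y k (cons (a.sub τ) τ) (cons (ev Y k τ ρ L a) ρ) (cons x L) M := by
  rw [ev_sub M _ τ ρ L (cons x L) fun n => by cases n with
    | zero => exact h
    | succ n => rfl]
  congr 1 <;> funext n <;> cases n <;> rfl

/-- Substitutions agreeing at the levels of a term and above give the same instance. -/
theorem sub_congr_lev {R : ℕ → ℕ → Prop} (nd : ∀ i j, R i j → j ≤ i) : ∀ (M : Tm ℕ) (L : ℕ → ℕ)
    {σ σ' : ℕ → Tm ℕ}, WS R L M → (∀ n, lev L M ≤ L n → σ n = σ' n) → M.sub σ = M.sub σ' := by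
  have hup : ∀ {x b : ℕ} {L : ℕ → ℕ} {σ σ' : ℕ → Tm ℕ}, (∀ n, b ≤ L n → σ n = σ' n) →
      ∀ n, b ≤ cons x L n → Tm.up σ n = Tm.up σ' n := by
    intro x b L σ σ' h n hn; cases n with
    | zero => rfl
    | succ n => exact congrArg (Tm.ren Nat.succ) (h n hn)
  intro M
  induction M with
  | var n => intro L σ σ' _ h; exact h n le_rfl
  | sort s => intros; rfl
  | app f a i1 i2 =>
    intro L σ σ' w h
    obtain ⟨w1, w2, w3⟩ := w
    simp only [lev] at h
    simp only [Tm.sub]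
    rw [i1 L w1 h, i2 L w2 fun n hn => h n (le_trans (nd _ _ w3) hn)]
  | lam A M i1 i2 =>
    intro L σ σ' w h
    obtain ⟨w1, w2, w3, w4⟩ := w
    simp only [lev] at h
    simp only [Tm.sub]
    have hle := nd _ _ w4
    rw [i1 L w1 fun n hn => h n (by omega), i2 _ w2 (hup h)]
  | pi A B i1 i2 =>
    intro L σ σ' w h
    obtain ⟨w1, w2, w3, w4, w5⟩ := w
    simp only [lev] at h
    simp only [Tm.sub]
    have hle := nd _ _ w5
    rw [i1 L w1 fun n hn => h n (by omega), i2 _ w2 (hup h)]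

theorem cons_agree {α : Type*} {p : ℕ → Prop} {x : ℕ} {L : ℕ → ℕ} {v v' : α} {f f' : ℕ → α}
    (h0 : p x → v = v') (h : ∀ n, p (L n) → f n = f' n) :
    ∀ n, p (cons x L n) → cons v f n = cons v' f' n := by
  intro n hn; cases n with
  | zero => exact h0 hn
  | succ n => exact h n hn

/-- A value only depends on the instances at levels `≥ k + 2` and values at level `k + 1`. -/
theorem ev_congr : ∀ (M : Tm ℕ) (L : ℕ → ℕ) {τ τ' : ℕ → Tm ℕ} {ρ ρ' : ℕ → Val},
    WS Y.R L M → lev L M = k + 1 → (∀ n, k + 2 ≤ L n → τ n = τ' n) →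
      (∀ n, L n = k + 1 → ρ n = ρ' n) → ev Y k τ ρ L M = ev Y k τ' ρ' L M := by
  intro M
  induction M with
  | var n => intro L τ τ' ρ ρ' _ hl _ h; exact h n hl
  | sort s => intros; rfl
  | app f a i1 i2 =>
    intro L τ τ' ρ ρ' w hl ht h
    obtain ⟨w1, w2, w3⟩ := w
    simp only [lev] at hl
    have hle := Y.nd _ _ w3
    simp only [ev, i1 L w1 hl ht h]
    split
    · rw [i2 L w2 ‹_› ht h]
    · rw [sub_congr_lev Y.nd a L w2 fun n hn => ht n (by omega)]
  | lam A M _ i2 =>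
    intro L τ τ' ρ ρ' w hl ht h
    obtain ⟨w1, w2, w3, w4⟩ := w
    simp only [lev] at hl
    have hle := Y.nd _ _ w4
    have eA : A.sub τ = A.sub τ' := sub_congr_lev Y.nd A L w1 fun n hn => ht n (by omega)
    have eM : ∀ V v, ev Y k (cons V τ) (cons v ρ) (cons (lev L A - 1) L) M =
        ev Y k (cons V τ') (cons v ρ') (cons (lev L A - 1) L) M := fun V v =>
      i2 _ w2 hl (cons_agree (p := (k + 2 ≤ ·)) (fun _ => rfl) ht)
        (cons_agree (p := (· = k + 1)) (fun _ => rfl) h)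
    simp only [ev, shape, eA, eM]
  | pi A B i1 i2 =>
    intro L τ τ' ρ ρ' w hl ht h
    obtain ⟨w1, w2, w3, w4, w5⟩ := w
    simp only [lev] at hl
    have hle := Y.nd _ _ w5
    have eB : ∀ V v, ev Y k (cons V τ) (cons v ρ) (cons (lev L A - 1) L) B =
        ev Y k (cons V τ') (cons v ρ') (cons (lev L A - 1) L) B := fun V v =>
      i2 _ w2 hl (cons_agree (p := (k + 2 ≤ ·)) (fun _ => rfl) ht)
        (cons_agree (p := (· = k + 1)) (fun _ => rfl) h)
    by_cases ha : lev L A = k + 1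
    · simp only [ev, eB, i1 L w1 ha ht h]
      rw [if_pos ha, if_pos ha]
    · have eA : A.sub τ = A.sub τ' := sub_congr_lev Y.nd A L w1 fun n hn => ht n (by omega)
      simp only [ev, shape, eA, eB]
      rw [if_neg ha, if_neg ha]

theorem sk_sub_congr {τ τ' : ℕ → Tm ℕ} {L : ℕ → ℕ} (A : Tm ℕ)
    (hτ : ∀ n, lev (lv Y []) (τ n) = L n) (hτ' : ∀ n, lev (lv Y []) (τ' n) = L n)
    (h : ∀ n, L n = k + 2 → τ n = τ' n) :
    sk (k + 2) (lv Y []) (A.sub τ) = sk (k + 2) (lv Y []) (A.sub τ') := by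
  rw [sk_sub A τ _ L hτ, sk_sub A τ' _ L hτ']
  exact sk_congr A L fun n hn => congrArg _ (h n hn)

theorem lev_cons {L : ℕ → ℕ} {τ : ℕ → Tm ℕ} {V : Tm ℕ} {x : ℕ} (hV : lev (lv Y []) V = x)
    (hτ : ∀ n, lev (lv Y []) (τ n) = L n) : ∀ n, lev (lv Y []) (cons V τ n) = cons x L n := by
  intro n; cases n with
  | zero => exact hV
  | succ n => exact hτ n

/-- The shape of a value only depends on the instances at level `k + 2` and the shapes. -/
theorem ev_fst : ∀ (M : Tm ℕ) (L : ℕ → ℕ) {τ τ' : ℕ → Tm ℕ} {ρ ρ' : ℕ → Val},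
    (∀ n, lev (lv Y []) (τ n) = L n) → (∀ n, lev (lv Y []) (τ' n) = L n) →
      lev L M = k + 1 → (∀ n, L n = k + 2 → τ n = τ' n) →
      (∀ n, L n = k + 1 → (ρ n).1 = (ρ' n).1) →
      (ev Y k τ ρ L M).1 = (ev Y k τ' ρ' L M).1 := by
  intro M
  induction M with
  | var n => intro L τ τ' ρ ρ' _ _ hl _ h; exact h n hl
  | sort s => intros; rfl
  | app f a i1 _ =>
    intro L τ τ' ρ ρ' hτ hτ' hl ht h
    simp only [lev] at hl
    simp only [ev]
    split <;> simp only [appV_fst, appH_fst, i1 L hτ hτ' hl ht h]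
  | lam A M _ i2 =>
    intro L τ τ' ρ ρ' hτ hτ' hl ht h
    simp only [lev] at hl
    have eM : ∀ v v' : Val, (cons (lev L A - 1) L 0 = k + 1 → v.1 = v'.1) →
        (ev Y k (cons (junk Y (lev L A - 1)) τ) (cons v ρ) (cons (lev L A - 1) L) M).1 =
        (ev Y k (cons (junk Y (lev L A - 1)) τ') (cons v' ρ') (cons (lev L A - 1) L) M).1 := by
      intro v v' hv
      refine i2 _ (lev_cons (lev_junk Y _) hτ) (lev_cons (lev_junk Y _) hτ') hl
        (cons_agree (p := (· = k + 2)) (fun _ => rfl) ht) fun n hn => ?_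
      cases n with
      | zero => exact hv hn
      | succ n => exact h n hn
    have es : shape Y k τ A = shape Y k τ' A := by
      simp only [shape, sk_sub_congr A hτ hτ' ht]
    simp only [ev]
    split
    · simp only [lamV]
      rw [eM _ ⟨shape Y k τ' A, dflt _⟩ fun _ => es, es]
    · simp only [lamH]
      rw [eM _ junkV fun _ => rfl]
  | pi A B _ _ => intros; rfl

end Tier

end Vale.Agent.P340
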