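import Vale.Agent.P340.T.Level

/-!
# P340, tiered systems: skeletons of one level

`sk k L M` keeps the parts of `M` of level `k` and forgets the others.  `Tm.sort true` is the
invisible marker, `Tm.sort false` stands for a sort.
-/

namespace Vale.Agent.P340

open Tm

/-- Strong normalization of one expression. -/
abbrev SN {S : Type} (M : Tm S) : Prop := Acc (fun a b => Step b a) M

theorem SN.step {S : Type} {M N : Tm S} (h : SN M) (hs : Step M N) : SN N := h.inv hs

theorem SN.red {S : Type} {M N : Tm S} (h : SN M) (hs : Red M N) : SN N := by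
  induction hs with
  | refl => exact h
  | tail _ h1 ih => exact ih.step h1

theorem SN.normal {S : Type} {M : Tm S} (h : M.Normal) : SN M :=
  ⟨_, fun N hs => absurd hs (h N)⟩

theorem SN.exists_normal {S : Type} {M : Tm S} (h : SN M) : ∃ N, Red M N ∧ N.Normal := by
  induction h with
  | intro M _ ih =>
    by_cases hM : M.Normal
    · exact ⟨M, .refl, hM⟩
    · simp only [Tm.Normal, not_forall, not_not] at hM
      obtain ⟨N, hN⟩ := hM
      obtain ⟨K, hK, hKn⟩ := ih N hN
      exact ⟨K, .head hN hK, hKn⟩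

theorem SN.of_sub {S : Type} {σ : ℕ → Tm S} {M : Tm S} (h : SN (M.sub σ)) : SN M := by
  generalize e : M.sub σ = X at h
  induction h generalizing M with
  | intro X _ ih => exact ⟨_, fun N hs => ih _ (e ▸ hs.sub σ) rfl⟩

theorem SN.ren {S : Type} {r : ℕ → ℕ} {M : Tm S} (h : SN M) : SN (M.ren r) := by
  induction h with
  | intro M _ ih =>
    refine ⟨_, fun N hs => ?_⟩
    obtain ⟨N', hs', rfl⟩ := hs.ren_inv
    exact ih N' hs'

theorem SN.pi {S : Type} {A B : Tm S} (hA : SN A) (hB : SN B) : SN (Tm.pi A B) := by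
  induction hA generalizing B with
  | intro A _ iA =>
    induction hB with
    | intro B hB iB =>
      refine ⟨_, fun N hs => ?_⟩
      cases hs with
      | piL _ h => exact iA _ h ⟨_, hB⟩
      | piR _ h => exact iB _ h

theorem SN.lam {S : Type} {A M : Tm S} (hA : SN A) (hM : SN M) : SN (Tm.lam A M) := by
  induction hA generalizing M with
  | intro A _ iA =>
    induction hM with
    | intro B hB iB =>
      refine ⟨_, fun N hs => ?_⟩
      cases hs with
      | lamL _ h => exact iA _ h ⟨_, hB⟩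
      | lamR _ h => exact iB _ h

/-- The normal form, if there is one. -/
noncomputable def nf {S : Type} [Nonempty S] (M : Tm S) : Tm S :=
  open Classical in if h : ∃ N, Red M N ∧ N.Normal then h.choose else .sort (Classical.arbitrary S)

theorem nf_eq {S : Type} [Nonempty S] {M N : Tm S} (h : Red M N) (hN : N.Normal) : nf M = N := by
  have hx : ∃ K, Red M K ∧ K.Normal := ⟨N, h, hN⟩
  rw [nf, dif_pos hx]
  obtain ⟨d, h1, h2⟩ := red_join hx.choose_spec.1 h
  rw [← h1.normal hx.choose_spec.2, h2.normal hN]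

theorem nf_spec {S : Type} [Nonempty S] {M : Tm S} (h : SN M) : Red M (nf M) ∧ (nf M).Normal := by
  obtain ⟨N, h1, h2⟩ := h.exists_normal
  rw [nf_eq h1 h2]; exact ⟨h1, h2⟩

theorem nf_red {S : Type} [Nonempty S] {M N : Tm S} (h : Red M N) (hN : SN N) :
    nf M = nf N :=
  nf_eq (h.trans (nf_spec hN).1) (nf_spec hN).2

theorem nf_normal {S : Type} [Nonempty S] {M : Tm S} (h : M.Normal) : nf M = M := nf_eq .refl h

theorem nf_ren {S : Type} [Nonempty S] {M : Tm S} (h : SN M) (r : ℕ → ℕ) :
    nf (M.ren r) = (nf M).ren r :=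
  nf_eq ((nf_spec h).1.lift _ fun _ _ hs => hs.ren r) ((nf_spec h).2.ren r)

theorem normal_pi {S : Type} {A B : Tm S} (hA : A.Normal) (hB : B.Normal) : (Tm.pi A B).Normal :=
  fun _ hs => by
    cases hs with
    | piL _ h => exact hA _ h
    | piR _ h => exact hB _ h

theorem nf_pi {S : Type} [Nonempty S] {A B : Tm S} (hA : SN A) (hB : SN B) :
    nf (Tm.pi A B) = Tm.pi (nf A) (nf B) :=
  nf_eq (Red.pi (nf_spec hA).1 (nf_spec hB).1) (normal_pi (nf_spec hA).2 (nf_spec hB).2)

theorem normal_sort {S : Type} (s : S) : (Tm.sort s).Normal := fun _ h => by cases h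

theorem normal_var {S : Type} (n : ℕ) : (Tm.var n : Tm S).Normal := fun _ h => by cases h

namespace Tier

/-- The invisible marker. -/
abbrev hole : Tm Bool := .sort true

/-- The level `k` skeleton. -/
def sk (k : ℕ) : (ℕ → ℕ) → Tm ℕ → Tm Bool
  | L, .var n => if L n = k then .var n else hole
  | _, .sort s => if s + 2 = k then .sort false else hole
  | L, .app f a => if lev L f = k then .app (sk k L f) (sk k L a) else hole
  | L, .lam A M => if lev (cons (lev L A - 1) L) M = k then
      .lam hole (sk k (cons (lev L A - 1) L) M) else hole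
  | L, .pi A B => if lev (cons (lev L A - 1) L) B = k then
      .pi (sk k L A) (sk k (cons (lev L A - 1) L) B) else hole

theorem sk_eq_hole {k : ℕ} : ∀ {L : ℕ → ℕ} {M : Tm ℕ}, lev L M ≠ k → sk k L M = hole
  | _, .var _, h => if_neg h
  | _, .sort _, h => if_neg h
  | _, .app _ _, h => if_neg h
  | _, .lam _ _, h => if_neg h
  | _, .pi _ _, h => if_neg h

theorem sk_ne_hole {k : ℕ} : ∀ {L : ℕ → ℕ} {M : Tm ℕ}, lev L M = k → sk k L M ≠ hole
  | _, .var _, h => by simp only [lev] at h; simp [sk, h, hole]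
  | _, .sort _, h => by simp only [lev] at h; simp [sk, h, hole]
  | _, .app _ _, h => by simp only [lev] at h; simp [sk, h, hole]
  | _, .lam _ _, h => by simp only [lev] at h; simp [sk, h, hole]
  | _, .pi _ _, h => by simp only [lev] at h; simp [sk, h, hole]

theorem sk_hole_iff {k : ℕ} {L : ℕ → ℕ} {M : Tm ℕ} : sk k L M = hole ↔ lev L M ≠ k :=
  ⟨fun h h' => sk_ne_hole h' h, sk_eq_hole⟩

theorem sk_congr {k : ℕ} : ∀ (M : Tm ℕ) (L : ℕ → ℕ) {σ σ' : ℕ → Tm Bool},
    (∀ n, L n = k → σ n = σ' n) → (sk k L M).sub σ = (sk k L M).sub σ' := by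
  have hup : ∀ {x : ℕ} {L : ℕ → ℕ} {σ σ' : ℕ → Tm Bool}, (∀ n, L n = k → σ n = σ' n) →
      ∀ n, cons x L n = k → Tm.up σ n = Tm.up σ' n := by
    intro x L σ σ' h n hn; cases n with
    | zero => rfl
    | succ n => exact congrArg (Tm.ren Nat.succ) (h n hn)
  intro M
  induction M with
  | var n =>
    intro L σ σ' h; simp only [sk]; split
    · exact h n ‹_›
    · rfl
  | sort s => intro L σ σ' _; simp only [sk]; split <;> rfl
  | app f a i1 i2 =>
    intro L σ σ' h; simp only [sk]; split
    · simp only [Tm.sub]; rw [i1 L h, i2 L h]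
    · rfl
  | lam A M i1 i2 =>
    intro L σ σ' h; simp only [sk]; split
    · simp only [Tm.sub]; rw [i2 _ (hup h)]
    · rfl
  | pi A M i1 i2 =>
    intro L σ σ' h; simp only [sk]; split
    · simp only [Tm.sub]; rw [i1 L h, i2 _ (hup h)]
    · rfl

theorem sk_ren {k : ℕ} : ∀ (M : Tm ℕ) (L : ℕ → ℕ) (r : ℕ → ℕ),
    sk k L (M.ren r) = (sk k (fun n => L (r n)) M).ren r := by
  have hup : ∀ (x : ℕ) (L r : ℕ → ℕ),
      (fun n => cons x L (upr r n)) = cons x fun n => L (r n) := by
    intro x L r; funext n; cases n <;> rfl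
  intro M
  induction M with
  | var n => intro L r; simp only [sk, Tm.ren]; split <;> rfl
  | sort s => intro L r; simp only [sk, Tm.ren]; split <;> rfl
  | app f a i1 i2 =>
    intro L r; simp only [sk, Tm.ren, lev_ren]; split
    · simp only [Tm.ren]; rw [i1, i2]
    · rfl
  | lam A M i1 i2 =>
    intro L r; simp only [sk, Tm.ren, lev_ren, hup]; split
    · simp only [Tm.ren]; rw [i2, hup]
    · rfl
  | pi A M i1 i2 =>
    intro L r; simp only [sk, Tm.ren, lev_ren, hup]; split
    · simp only [Tm.ren]; rw [i1, i2, hup]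
    · rfl

theorem sk_succ (k x : ℕ) (L : ℕ → ℕ) (M : Tm ℕ) :
    sk k (cons x L) (M.ren Nat.succ) = (sk k L M).ren Nat.succ :=
  sk_ren M _ _

theorem sk_sub {k : ℕ} : ∀ (M : Tm ℕ) (σ : ℕ → Tm ℕ) (L L' : ℕ → ℕ),
    (∀ n, lev L (σ n) = L' n) →
      sk k L (M.sub σ) = (sk k L' M).sub fun n => sk k L (σ n) := by
  have hup : ∀ (A : Tm ℕ) (x : ℕ) (σ : ℕ → Tm ℕ) (L L' : ℕ → ℕ),
      (sk k (cons x L') A).sub (fun n => sk k (cons x L) (Tm.up σ n)) =
        (sk k (cons x L') A).sub (Tm.up fun n => sk k L (σ n)) := by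
    intro A x σ L L'
    refine sk_congr A _ fun n hn => ?_
    cases n with
    | zero => exact if_pos hn
    | succ n => exact sk_succ _ _ _ _
  intro M
  induction M with
  | var n =>
    intro σ L L' h
    by_cases hn : L' n = k
    · simp only [sk, if_pos hn, Tm.sub]
    · simp only [sk, if_neg hn, Tm.sub]; exact sk_eq_hole (by rw [h n]; exact hn)
  | sort s => intro σ L L' _; simp only [sk, Tm.sub]; split <;> rfl
  | app f a i1 i2 =>
    intro σ L L' h; simp only [sk, Tm.sub, lev_sub f σ L L' h]; split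
    · simp only [Tm.sub]; rw [i1 σ L L' h, i2 σ L L' h]
    · rfl
  | lam A M i1 i2 =>
    intro σ L L' h
    simp only [sk, Tm.sub, lev_sub A σ L L' h, lev_sub M _ _ _ (lev_up h (lev L' A - 1))]; split
    · simp only [Tm.sub]; rw [i2 _ _ _ (lev_up h _), hup]
    · rfl
  | pi A M i1 i2 =>
    intro σ L L' h
    simp only [sk, Tm.sub, lev_sub A σ L L' h, lev_sub M _ _ _ (lev_up h (lev L' A - 1))]; split
    · simp only [Tm.sub]; rw [i1 σ L L' h, i2 _ _ _ (lev_up h _), hup]
    · rfl

theorem sk_one {k x : ℕ} {L : ℕ → ℕ} (M N : Tm ℕ) (h : lev L N = x) :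
    sk k L (M.sub (Tm.one N)) = (sk k (cons x L) M).sub (Tm.one (sk k L N)) := by
  rw [sk_sub M _ L (cons x L) (fun n => by cases n with
    | zero => exact h
    | succ n => rfl)]
  refine sk_congr M _ fun n hn => ?_
  cases n with
  | zero => rfl
  | succ n => exact if_pos hn

variable {Y : Sys} {Γ Δ : List (Tm ℕ)} {M N A B : Tm ℕ} {k : ℕ}

theorem redex {f a C : Tm ℕ} (h : Y.T Γ (.app (.lam f M) a) C) :
    lev (lv Y Γ) a = lev (lv Y Γ) f - 1 := by
  obtain ⟨A, B, hf, ha, -, hA, -, -, -⟩ := rule_app h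
  obtain ⟨B', r, hC, -, -, -, -, hc⟩ := rule_lam hf
  obtain ⟨d, h1, h2⟩ := (conv_pi hc).1
  rw [lev_typed hC]
  cases uniq_sort (hA.red h1) (hC.red h2)
  rw [Nat.add_sub_cancel]

theorem sk_beta {C : Tm ℕ} (h : Y.T Γ (.app (.lam A M) N) C)
    (hk : lev (lv Y Γ) (.app (.lam A M) N) = k) :
    Step (sk k (lv Y Γ) (.app (.lam A M) N)) (sk k (lv Y Γ) (M.subst 0 N)) := by
  have hk' : lev (cons (lev (lv Y Γ) A - 1) (lv Y Γ)) M = k := hk
  rw [subst_zero, sk_one M N (redex h)]
  simp only [sk, lev, if_pos hk']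
  exact beta_sub _ _ _

theorem sk_step {X : Tm ℕ} (hs : Step M N) : ∀ {Γ : List (Tm ℕ)}, Y.T Γ M X →
    sk k (lv Y Γ) M = sk k (lv Y Γ) N ∨ Step (sk k (lv Y Γ) M) (sk k (lv Y Γ) N) := by
  induction hs generalizing X with
  | beta A M N =>
    intro Γ h
    by_cases hk : lev (lv Y Γ) (.app (.lam A M) N) = k
    · exact .inr (sk_beta h hk)
    · refine .inl ((sk_eq_hole hk).trans (sk_eq_hole ?_).symm)
      rw [lev_step h (.beta A M N)]; exact hk
  | @appL f f' a h1 ih =>
    intro Γ h
    obtain ⟨A, B, hf, -, -⟩ := h.gen_app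
    simp only [sk, lev_step hf h1]
    split
    · rcases ih hf with e | e
      · exact .inl (by rw [e])
      · exact .inr (.appL _ e)
    · exact .inl rfl
  | @appR f a a' h1 ih =>
    intro Γ h
    obtain ⟨A, B, -, ha, -⟩ := h.gen_app
    simp only [sk]
    split
    · rcases ih ha with e | e
      · exact .inl (by rw [e])
      · exact .inr (.appR _ e)
    · exact .inl rfl
  | @lamL A A' M h1 _ =>
    intro Γ h
    obtain ⟨B, r, s, hA, -⟩ := h.gen_lam
    simp only [sk, lev_step hA h1]
    exact .inl trivial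
  | @lamR A M M' h1 ih =>
    intro Γ h
    obtain ⟨B, r, s, -, hM, -⟩ := h.gen_lam
    have e1 := lev_step hM h1
    have e2 := ih hM
    simp only [lv] at e1 e2
    simp only [sk, e1]
    split
    · rcases e2 with e | e
      · exact .inl (by rw [e])
      · exact .inr (.lamR _ e)
    · exact .inl rfl
  | @piL A A' B h1 ih =>
    intro Γ h
    obtain ⟨r, s, t, hA, -⟩ := h.gen_pi
    simp only [sk, lev_step hA h1]
    split
    · rcases ih hA with e | e
      · exact .inl (by rw [e])
      · exact .inr (.piL _ e)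
    · exact .inl rfl
  | @piR A M M' h1 ih =>
    intro Γ h
    obtain ⟨r, s, t, -, hM, -⟩ := h.gen_pi
    have e1 := lev_step hM h1
    have e2 := ih hM
    simp only [lv] at e1 e2
    simp only [sk, e1]
    split
    · rcases e2 with e | e
      · exact .inl (by rw [e])
      · exact .inr (.piR _ e)
    · exact .inl rfl

theorem sk_red (h : Y.T Γ M A) (hs : Red M N) : Red (sk k (lv Y Γ) M) (sk k (lv Y Γ) N) := by
  induction hs with
  | refl => exact .refl
  | tail h0 h1 ih =>
    rcases sk_step h1 (h.red h0) with e | e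
    · rw [← e]; exact ih
    · exact ih.tail e

theorem sk_normal : ∀ (M : Tm ℕ) (L : ℕ → ℕ), M.Normal → (sk k L M).Normal := by
  intro M
  induction M with
  | var n => intro L _; simp only [sk]; split <;> [exact normal_var n; exact normal_sort _]
  | sort s => intro L _; simp only [sk]; split <;> exact normal_sort _
  | app f a i1 i2 =>
    intro L h; simp only [sk]; split
    · intro X hX
      have hf : f.Normal := fun _ hs => h _ (.appL _ hs)
      have ha : a.Normal := fun _ hs => h _ (.appR _ hs)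
      generalize he : sk k L f = F at hX
      cases hX with
      | beta A' M' _ =>
        cases f with
        | lam A M => exact h _ (.beta A M a)
        | _ => simp only [sk] at he; split at he <;> cases he
      | appL _ hs => exact i1 L hf _ (he ▸ hs)
      | appR _ hs => exact i2 L ha _ hs
    · exact normal_sort _
  | lam A M i1 i2 =>
    intro L h; simp only [sk]; split
    · intro X hX
      cases hX with
      | lamL _ hs => exact normal_sort _ _ hs
      | lamR _ hs => exact i2 _ (fun _ hs => h _ (.lamR _ hs)) _ hs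
    · exact normal_sort _
  | pi A M i1 i2 =>
    intro L h; simp only [sk]; split
    · exact normal_pi (i1 L fun _ hs => h _ (.piL _ hs)) (i2 _ fun _ hs => h _ (.piR _ hs))
    · exact normal_sort _

/-- Everything of level above `k` is strongly normalizing, also as a skeleton. -/
def Above (Y : Sys) (k : ℕ) : Prop :=
  ∀ j, k < j → ∀ Γ M A, Y.T Γ M A → lev (lv Y Γ) M = j → SN M ∧ SN (sk j (lv Y Γ) M)

theorem Tys.sn {n : ℕ} (h : Tys Y Γ A n) (ab : Above Y k) (hn : k ≤ n) :
    SN A ∧ SN (sk (n + 1) (lv Y Γ) A) := by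
  rcases h with ⟨s, rfl, rfl⟩ | h
  · exact ⟨.normal (normal_sort _), .normal (sk_normal _ _ (normal_sort _))⟩
  · exact ab (n + 1) (by omega) Γ A _ h (lev_typed h)

theorem Tys.sk_red {n : ℕ} (h : Tys Y Γ A n) (hs : Red A B) :
    Red (sk k (lv Y Γ) A) (sk k (lv Y Γ) B) := by
  rcases h with ⟨s, rfl, -⟩ | h
  · rw [red_sort hs]
  · exact Tier.sk_red h hs

theorem nf_sk_conv {n : ℕ} (hA : Tys Y Γ A n) (hB : Tys Y Γ B n) (ab : Above Y k) (hn : k ≤ n)
    (hc : Conv A B) : nf (sk (n + 1) (lv Y Γ) A) = nf (sk (n + 1) (lv Y Γ) B) := by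
  obtain ⟨d, h1, h2⟩ := hc
  have hd := ((hA.red h1).sn ab hn).2
  rw [nf_red (hA.sk_red h1) hd, nf_red (hB.sk_red h2) hd]

theorem nf_ne_hole {n : ℕ} (hA : Tys Y Γ A n) (ab : Above Y k) (hn : k ≤ n) :
    nf (sk (n + 1) (lv Y Γ) A) ≠ hole := by
  obtain ⟨h1, h2⟩ := nf_spec (hA.sn ab hn).1
  rw [nf_eq (hA.sk_red h1) (sk_normal _ _ h2)]
  exact sk_ne_hole (hA.red h1).lev_eq

/-- One step, or passing to an immediate component. -/
inductive Down : Tm Bool → Tm Bool → Prop
  | step {U V : Tm Bool} : Step U V → Down V U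
  | appL (f a : Tm Bool) : Down f (.app f a)
  | appR (f a : Tm Bool) : Down a (.app f a)
  | lam (a m : Tm Bool) : Down m (.lam a m)
  | piL (a b : Tm Bool) : Down a (.pi a b)
  | piR (a b : Tm Bool) : Down b (.pi a b)

theorem acc_down {T : Tm Bool} (h : SN T) : Acc Down T := by
  suffices ∀ (U : Tm Bool) (C : Tm Bool → Tm Bool), C U = T →
      (∀ V V', Step V V' → Step (C V) (C V')) → Acc Down U from this T id rfl fun _ _ h => h
  induction h with
  | intro T _ ih =>
    intro U
    induction U with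
    | var n => intro C _ _; refine ⟨_, fun V hV => ?_⟩; cases hV with | step hs => cases hs
    | sort n => intro C _ _; refine ⟨_, fun V hV => ?_⟩; cases hV with | step hs => cases hs
    | app f a i1 i2 =>
      intro C e hC; refine ⟨_, fun V hV => ?_⟩
      cases hV with
      | step hs => exact ih _ (e ▸ hC _ _ hs) V C rfl hC
      | appL => exact i1 (fun x => C (.app x a)) e fun _ _ hs => hC _ _ (.appL _ hs)
      | appR => exact i2 (fun x => C (.app f x)) e fun _ _ hs => hC _ _ (.appR _ hs)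
    | lam A M i1 i2 =>
      intro C e hC; refine ⟨_, fun V hV => ?_⟩
      cases hV with
      | step hs => exact ih _ (e ▸ hC _ _ hs) V C rfl hC
      | lam => exact i2 (fun x => C (.lam A x)) e fun _ _ hs => hC _ _ (.lamR _ hs)
    | pi A M i1 i2 =>
      intro C e hC; refine ⟨_, fun V hV => ?_⟩
      cases hV with
      | step hs => exact ih _ (e ▸ hC _ _ hs) V C rfl hC
      | piL => exact i1 (fun x => C (.pi x M)) e fun _ _ hs => hC _ _ (.piL _ hs)
      | piR => exact i2 (fun x => C (.pi A x)) e fun _ _ hs => hC _ _ (.piR _ hs)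

theorem sn_app (Q : Tm ℕ → Tm ℕ → Prop)
    (hL : ∀ f f' a, Q f a → Step f f' → Q f' a) (hR : ∀ f a a', Q f a → Step a a' → Q f a')
    (hB : ∀ A M a, Q (.lam A M) a → SN (M.subst 0 a)) {f a : Tm ℕ} (hf : SN f) (ha : SN a)
    (h : Q f a) : SN (Tm.app f a) := by
  induction hf generalizing a with
  | intro f _ iF =>
    induction ha with
    | intro a ha iA =>
      refine ⟨_, fun N hs => ?_⟩
      cases hs with
      | beta A M _ => exact hB A M a h
      | appL _ h1 => exact iF _ h1 ⟨_, ha⟩ (hL _ _ _ h h1)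
      | appR _ h1 => exact iA _ h1 (hR _ _ _ h h1)

/-- Strong normalization lifts from the skeleton. -/
theorem lift_sn (ab : Above Y k) {T : Tm Bool} (hT : SN T) : ∀ {Γ : List (Tm ℕ)} {M A : Tm ℕ},
    Y.T Γ M A → lev (lv Y Γ) M = k → sk k (lv Y Γ) M = T → SN M := by
  have hT' := (acc_down hT).transGen
  clear hT
  induction hT' with
  | intro T _ ih =>
    intro Γ M A h hk e
    have comp : ∀ {Δ : List (Tm ℕ)} {N B : Tm ℕ}, Y.T Δ N B → k ≤ lev (lv Y Δ) N →
        (lev (lv Y Δ) N = k → Down (sk k (lv Y Δ) N) T) → SN N := by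
      intro Δ N B hN hle hd
      rcases eq_or_lt_of_le hle with e' | e'
      · exact ih _ (.single (hd e'.symm)) hN e'.symm rfl
      · exact (ab _ e' Δ N B hN rfl).1
    cases M with
    | var n => exact .normal (normal_var n)
    | sort s => exact .normal (normal_sort s)
    | lam C M =>
      have hk' : lev (cons (lev (lv Y Γ) C - 1) (lv Y Γ)) M = k := hk
      simp only [sk, if_pos hk'] at e
      obtain ⟨B, r, hC, hM, -, -, hR, -⟩ := rule_lam h
      have e1 := lev_typed hC
      have e2 := Y.nd _ _ hR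
      simp only [lv] at e2
      refine SN.lam (comp hC (by omega) fun hc => ?_)
        (comp hM (le_of_eq hk'.symm) fun _ => e ▸ Down.lam _ _)
      exfalso; omega
    | pi C D =>
      have hk' : lev (cons (lev (lv Y Γ) C - 1) (lv Y Γ)) D = k := hk
      simp only [sk, if_pos hk'] at e
      obtain ⟨r, s, t, hC, hD, hr, -⟩ := h.gen_pi
      have e1 := lev_typed hC
      have e2 := lev_typed hD
      simp only [lv] at e2
      have e3 : s ≤ r := Y.nd _ _ hr.1
      exact SN.pi (comp hC (by omega) fun _ => e ▸ Down.piL _ _)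
        (comp hD (le_of_eq hk'.symm) fun _ => e ▸ Down.piR _ _)
    | app f a =>
      have hk' : lev (lv Y Γ) f = k := hk
      obtain ⟨A', B', hf, ha, -, -, -, hR, -⟩ := rule_app h
      have e' : Tm.app (sk k (lv Y Γ) f) (sk k (lv Y Γ) a) = T := by
        simp only [sk, if_pos hk'] at e; exact e
      have e3 := Y.nd _ _ hR
      refine sn_app (fun f' a' => Y.T Γ (.app f' a') A ∧ lev (lv Y Γ) (.app f' a') = k ∧
        Red T (sk k (lv Y Γ) (.app f' a'))) ?_ ?_ ?_
        (comp hf (le_of_eq hk'.symm) fun _ => e' ▸ Down.appL _ _)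
        (comp ha (by omega) fun _ => e' ▸ Down.appR _ _) ⟨h, hk, by rw [e]⟩
      · rintro f f' a ⟨h1, h2, h3⟩ hs
        exact ⟨h1.step (.appL _ hs), (lev_step h1 (.appL _ hs)).trans h2,
          h3.trans (sk_red h1 (.single (.appL _ hs)))⟩
      · rintro f a a' ⟨h1, h2, h3⟩ hs
        exact ⟨h1.step (.appR _ hs), (lev_step h1 (.appR _ hs)).trans h2,
          h3.trans (sk_red h1 (.single (.appR _ hs)))⟩
      · rintro C M a' ⟨h1, h2, h3⟩
        refine ih (sk k (lv Y Γ) (M.subst 0 a')) ?_ (h1.step (.beta _ _ _))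
          ((lev_step h1 (.beta _ _ _)).trans h2) rfl
        have hd : Down (sk k (lv Y Γ) (M.subst 0 a')) (sk k (lv Y Γ) (.app (.lam C M) a')) :=
          .step (sk_beta h1 h2)
        generalize sk k (lv Y Γ) (.app (.lam C M) a') = U at h3 hd
        clear e e'
        generalize sk k (lv Y Γ) (M.subst 0 a') = V at hd ⊢
        induction h3 generalizing V with
        | refl => exact .single hd
        | tail _ hs ih2 => exact .head hd (ih2 _ (Down.step hs))

end Tier

end Vale.Agent.P340
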