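import Vale.Agent.P340.Finite

/-!
# P340, tiered systems: simultaneous renaming and substitution
-/

namespace Vale.Agent.P340

universe u

variable {S : Type u}

/-- Prepend a value to a sequence. -/
def cons {α : Type*} (x : α) (f : ℕ → α) : ℕ → α
  | 0 => x
  | n + 1 => f n

@[simp] theorem cons_zero {α : Type*} (x : α) (f : ℕ → α) : cons x f 0 = x := rfl

@[simp] theorem cons_succ {α : Type*} (x : α) (f : ℕ → α) (n : ℕ) : cons x f (n + 1) = f n := rfl

theorem comp_cons {α β : Type*} (h : α → β) (x : α) (f : ℕ → α) :
    (fun n => h (cons x f n)) = cons (h x) fun n => h (f n) := by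
  funext n; cases n <;> rfl

namespace Tm

/-- A renaming under a binder. -/
def upr (r : ℕ → ℕ) : ℕ → ℕ := cons 0 fun n => r n + 1

/-- Simultaneous renaming. -/
def ren (r : ℕ → ℕ) : Tm S → Tm S
  | var k => var (r k)
  | sort s => sort s
  | app f a => app (f.ren r) (a.ren r)
  | lam A M => lam (A.ren r) (M.ren (upr r))
  | pi A B => pi (A.ren r) (B.ren (upr r))

/-- A substitution under a binder. -/
def up (σ : ℕ → Tm S) : ℕ → Tm S := cons (var 0) fun n => (σ n).ren Nat.succ

/-- Simultaneous substitution. -/
def sub (σ : ℕ → Tm S) : Tm S → Tm S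
  | var k => σ k
  | sort s => sort s
  | app f a => app (f.sub σ) (a.sub σ)
  | lam A M => lam (A.sub σ) (M.sub (up σ))
  | pi A B => pi (A.sub σ) (B.sub (up σ))

/-- Substitution for the newest variable. -/
def one (N : Tm S) : ℕ → Tm S := cons N var

theorem upr_comp (r r' : ℕ → ℕ) : (fun n => upr r' (upr r n)) = upr fun n => r' (r n) := by
  funext n; cases n <;> rfl

theorem ren_ren : ∀ (M : Tm S) (r r' : ℕ → ℕ), (M.ren r).ren r' = M.ren fun n => r' (r n)
  | var _, _, _ => rfl
  | sort _, _, _ => rfl
  | app f a, r, r' => by simp only [ren, ren_ren f, ren_ren a]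
  | lam A M, r, r' => by simp only [ren, ren_ren A, ren_ren M, upr_comp]
  | pi A B, r, r' => by simp only [ren, ren_ren A, ren_ren B, upr_comp]

theorem up_upr (r : ℕ → ℕ) (σ : ℕ → Tm S) : (fun n => up σ (upr r n)) = up fun n => σ (r n) := by
  funext n; cases n <;> rfl

theorem sub_ren : ∀ (M : Tm S) (r : ℕ → ℕ) (σ : ℕ → Tm S),
    (M.ren r).sub σ = M.sub fun n => σ (r n)
  | var _, _, _ => rfl
  | sort _, _, _ => rfl
  | app f a, r, σ => by simp only [ren, sub, sub_ren f, sub_ren a]
  | lam A M, r, σ => by simp only [ren, sub, sub_ren A, sub_ren M, up_upr]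
  | pi A B, r, σ => by simp only [ren, sub, sub_ren A, sub_ren B, up_upr]

theorem upr_up (σ : ℕ → Tm S) (r : ℕ → ℕ) :
    (fun n => (up σ n).ren (upr r)) = up fun n => (σ n).ren r := by
  funext n
  cases n with
  | zero => rfl
  | succ n => simp only [up, cons, ren_ren]; rfl

theorem ren_sub : ∀ (M : Tm S) (σ : ℕ → Tm S) (r : ℕ → ℕ),
    (M.sub σ).ren r = M.sub fun n => (σ n).ren r
  | var _, _, _ => rfl
  | sort _, _, _ => rfl
  | app f a, σ, r => by simp only [ren, sub, ren_sub f, ren_sub a]
  | lam A M, σ, r => by simp only [ren, sub, ren_sub A, ren_sub M, upr_up]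
  | pi A B, σ, r => by simp only [ren, sub, ren_sub A, ren_sub B, upr_up]

theorem up_up (σ τ : ℕ → Tm S) :
    (fun n => (up σ n).sub (up τ)) = up fun n => (σ n).sub τ := by
  funext n
  cases n with
  | zero => rfl
  | succ n =>
    simp only [up, cons, sub_ren, ren_sub]

theorem sub_sub : ∀ (M : Tm S) (σ τ : ℕ → Tm S),
    (M.sub σ).sub τ = M.sub fun n => (σ n).sub τ
  | var _, _, _ => rfl
  | sort _, _, _ => rfl
  | app f a, σ, τ => by simp only [sub, sub_sub f, sub_sub a]
  | lam A M, σ, τ => by simp only [sub, sub_sub A, sub_sub M, up_up]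
  | pi A B, σ, τ => by simp only [sub, sub_sub A, sub_sub B, up_up]

theorem up_var : up (var : ℕ → Tm S) = var := by
  funext n; cases n <;> rfl

theorem sub_var : ∀ M : Tm S, M.sub var = M
  | var _ => rfl
  | sort _ => rfl
  | app f a => by simp only [sub, sub_var f, sub_var a]
  | lam A M => by simp only [sub, up_var, sub_var A, sub_var M]
  | pi A B => by simp only [sub, up_var, sub_var A, sub_var B]

theorem up_ren (r : ℕ → ℕ) : up (fun n => (var (r n) : Tm S)) = fun n => var (upr r n) := by
  funext n; cases n <;> rfl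

theorem sub_var_comp : ∀ (M : Tm S) (r : ℕ → ℕ), (M.sub fun n => var (r n)) = M.ren r
  | var _, _ => rfl
  | sort _, _ => rfl
  | app f a, r => by simp only [sub, ren, sub_var_comp f, sub_var_comp a]
  | lam A M, r => by simp only [sub, ren, up_ren, sub_var_comp A, sub_var_comp M]
  | pi A B, r => by simp only [sub, ren, up_ren, sub_var_comp A, sub_var_comp B]

theorem ren_succ_one (M N : Tm S) : (M.ren Nat.succ).sub (one N) = M := by
  rw [sub_ren]; exact sub_var M

theorem ren_succ_cons (M N : Tm S) (σ : ℕ → Tm S) :
    (M.ren Nat.succ).sub (cons N σ) = M.sub σ := by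
  rw [sub_ren]; rfl

theorem sub_up_one (M N : Tm S) (σ : ℕ → Tm S) :
    (M.sub (up σ)).sub (one N) = M.sub (cons N σ) := by
  rw [sub_sub]; congr 1; funext n
  cases n with
  | zero => rfl
  | succ n => exact ren_succ_one _ _

theorem sub_one_comp (M N : Tm S) (σ : ℕ → Tm S) :
    (M.sub (one N)).sub σ = (M.sub (up σ)).sub (one (N.sub σ)) := by
  rw [sub_up_one, sub_sub]; congr 1; funext n; cases n <;> rfl

theorem ren_one_comp (M N : Tm S) (r : ℕ → ℕ) :
    (M.sub (one N)).ren r = (M.ren (upr r)).sub (one (N.ren r)) := by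
  rw [ren_sub, sub_ren]; congr 1; funext n; cases n <;> rfl

theorem lift_eq_ren : ∀ (M : Tm S) (d : ℕ), M.lift d = M.ren fun k => if k < d then k else k + 1
  | var k, d => by simp only [lift, ren]; split <;> rfl
  | sort _, _ => rfl
  | app f a, d => by simp only [lift, ren, lift_eq_ren f, lift_eq_ren a]
  | lam A M, d => by
    simp only [lift, ren, lift_eq_ren A, lift_eq_ren M]; congr 2
    funext k; cases k with
    | zero => simp [upr]
    | succ k => simp only [upr, cons]; by_cases h : k < d <;> simp [h]
  | pi A B, d => by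
    simp only [lift, ren, lift_eq_ren A, lift_eq_ren B]; congr 2
    funext k; cases k with
    | zero => simp [upr]
    | succ k => simp only [upr, cons]; by_cases h : k < d <;> simp [h]

theorem lift_zero (M : Tm S) : M.lift 0 = M.ren Nat.succ := by
  rw [lift_eq_ren]; congr 1

theorem subst_eq_sub : ∀ (M : Tm S) (d : ℕ) (N : Tm S),
    M.subst d N = M.sub fun k => if k < d then var k else if k = d then N else var (k - 1)
  | var _, _, _ => rfl
  | sort _, _, _ => rfl
  | app f a, d, N => by simp only [subst, sub, subst_eq_sub f, subst_eq_sub a]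
  | lam A M, d, N => by
    simp only [subst, sub, subst_eq_sub A, subst_eq_sub M]; congr 2
    funext k; exact up_point d N k
  | pi A B, d, N => by
    simp only [subst, sub, subst_eq_sub A, subst_eq_sub B]; congr 2
    funext k; exact up_point d N k
where
  up_point (d : ℕ) (N : Tm S) (k : ℕ) :
      (if k < d + 1 then var k else if k = d + 1 then N.lift 0 else var (k - 1)) =
        up (fun k => if k < d then var k else if k = d then N else var (k - 1)) k := by
    cases k with
    | zero => simp [up]
    | succ k =>
      simp only [up, cons]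
      rcases lt_trichotomy k d with h | h | h
      · simp [h, ren]
      · subst h; simp [lift_zero]
      · have h1 : ¬ k < d := by omega
        have h2 : k ≠ d := by omega
        simp only [show ¬ k + 1 < d + 1 by omega, show k + 1 ≠ d + 1 by omega, if_neg h1, if_neg h2,
          if_false, ren]
        congr 1; omega

theorem subst_zero (M N : Tm S) : M.subst 0 N = M.sub (one N) := by
  rw [subst_eq_sub]; congr 1; funext k; cases k <;> simp [one]

theorem map_ren {T : Type*} (g : S → T) : ∀ (M : Tm S) (r : ℕ → ℕ),
    (M.ren r).map g = (M.map g).ren r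
  | var _, _ => rfl
  | sort _, _ => rfl
  | app f a, r => by simp only [ren, map, map_ren g f, map_ren g a]
  | lam A M, r => by simp only [ren, map, map_ren g A, map_ren g M]
  | pi A B, r => by simp only [ren, map, map_ren g A, map_ren g B]

end Tm

end Vale.Agent.P340
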