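import Vale.Agent.P340.T.Shapes

/-!
# P340, tiered systems: shapes and values respect typing and reduction
-/

namespace Vale.Agent.P340

open Tm

namespace Tier

variable {Y : Sys} {k : ℕ} {Γ : List (Tm ℕ)} {A B M X : Tm ℕ} {r : ℕ} {τ τ' : ℕ → Tm ℕ}

/-- A closed instantiation of a context. -/
abbrev Inst (Y : Sys) (Γ : List (Tm ℕ)) (τ : ℕ → Tm ℕ) : Prop :=
  Sub (chain Y.R Y.K) Y.E Γ τ []

theorem lv_cons (hA : Y.T Γ A (.sort r)) : lv Y (A :: Γ) = cons r (lv Y Γ) := by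
  rw [lv, lev_typed hA, Nat.add_sub_cancel]

theorem Inst.lev (hw : Wf (chain Y.R Y.K) Y.E Γ) (hs : Inst Y Γ τ) :
    ∀ n, Tier.lev (lv Y []) (τ n) = lv Y Γ n :=
  lv_sub hw hs

theorem fresh (hA : Y.T Γ A (.sort r)) (hs : Inst Y Γ τ) : ∃ V, Y.T [] V (A.sub τ) :=
  ⟨_, H.gvar (Function.surjInv_eq Y.surj (A.sub τ, r)) (hA.sub hs)⟩

theorem lev_inst {V : Tm ℕ} (hA : Y.T Γ A (.sort r)) (hs : Inst Y Γ τ)
    (hV : Y.T [] V (A.sub τ)) : lev (lv Y []) V = r :=
  lev_eq hV (.inr (hA.sub hs))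

theorem Tys.inst {n : ℕ} (h : Tys Y Γ A n) (hs : Inst Y Γ τ) : Tys Y [] (A.sub τ) n := by
  rcases h with ⟨s, rfl, hs'⟩ | h
  · exact .inl ⟨s, rfl, hs'⟩
  · exact .inr (h.sub hs)

theorem ev_low (hA : Y.T Γ A (.sort r)) (hM : Y.T (A :: Γ) M X)
    (hl : lev (lv Y (A :: Γ)) M = k + 1) (hr : r < k + 2) (U V : Tm ℕ) (τ : ℕ → Tm ℕ)
    (ρ : ℕ → Val) :
    ev Y k (cons U τ) ρ (lv Y (A :: Γ)) M = ev Y k (cons V τ) ρ (lv Y (A :: Γ)) M := by
  refine ev_congr M _ (ws hM) hl (fun n hn => ?_) fun _ _ => rfl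
  cases n with
  | zero => rw [lv_cons hA, cons_zero] at hn; omega
  | succ n => rfl

theorem ev_high (hA : Y.T Γ A (.sort r)) (hl : lev (lv Y (A :: Γ)) M = k + 1) (hr : r ≠ k + 2)
    (hs : Inst Y Γ τ) {U V : Tm ℕ} (hU : lev (lv Y []) U = r) (hV : lev (lv Y []) V = r)
    (ρ : ℕ → Val) :
    (ev Y k (cons U τ) ρ (lv Y (A :: Γ)) M).1 = (ev Y k (cons V τ) ρ (lv Y (A :: Γ)) M).1 := by
  rw [lv_cons hA] at hl ⊢
  refine ev_fst M _ (lev_cons hU (hs.lev hA.wf)) (lev_cons hV (hs.lev hA.wf)) hl (fun n hn => ?_)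
    fun _ _ => rfl
  cases n with
  | zero => exact absurd hn hr
  | succ n => rfl

theorem shape_sort (s : ℕ) : shape Y k τ (.sort s) = .base := by
  rw [shape, Tm.sub, nf_normal (sk_normal _ _ (normal_sort _))]
  simp only [sk]
  split <;> rfl

theorem shape_conv (ab : Above Y k) (hA : Tys Y Γ A (k + 1)) (hB : Tys Y Γ B (k + 1))
    (hs : Inst Y Γ τ) (hc : Conv A B) : shape Y k τ A = shape Y k τ B :=
  congrArg sh (nf_sk_conv (hA.inst hs) (hB.inst hs) ab (Nat.le_succ k) (hc.sub τ))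

theorem shape_pi (ab : Above Y k) (h2 : ¬ Y.R (k + 2) (k + 1))
    (hp : Y.T Γ (.pi A B) (.sort (k + 1))) (hs : Inst Y Γ τ) {V : Tm ℕ}
    (hV : lev (lv Y []) V = lev (lv Y Γ) A - 1) :
    shape Y k τ (.pi A B) = if lev (lv Y Γ) A = k + 2 then
      .arr (shape Y k τ A) (shape Y k (cons V τ) B) else .arrH (shape Y k (cons V τ) B) := by
  obtain ⟨r, hA, hB, hR⟩ := rule_pi hp
  rw [lev_typed hA, Nat.add_sub_cancel] at hV
  rw [lev_typed hA]
  have hne : r ≠ k + 2 := fun e => h2 (e ▸ hR)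
  have hA' : Y.T [] (A.sub τ) (.sort r) := hA.sub hs
  have hB' : Y.T [A.sub τ] (B.sub (Tm.up τ)) (.sort (k + 1)) := hB.sub (hs.up hA')
  have hlv : lv Y [A.sub τ] = cons r (lv Y []) := lv_cons hA'
  have sB : SN (sk (k + 2) (lv Y [A.sub τ]) (B.sub (Tm.up τ))) :=
    (Tys.sn (.inr hB') ab (Nat.le_succ k)).2
  have hb : lev (cons r (lv Y [])) (B.sub (Tm.up τ)) = k + 2 := hlv ▸ lev_typed hB'
  have eB : shape Y k (cons V τ) B =
      sh (nf (sk (k + 2) (lv Y [A.sub τ]) (B.sub (Tm.up τ)))) := by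
    unfold shape
    rw [← sub_up_one, sk_one _ V hV, ← hlv,
      sk_congr _ (lv Y [A.sub τ]) (σ' := fun n => Tm.var (n - 1)) (fun n hn => ?_), sub_var_comp,
      nf_ren sB, sh_ren]
    cases n with
    | zero => rw [hlv, cons_zero] at hn; exact absurd hn hne
    | succ n => rfl
  have sA : SN (sk (k + 2) (lv Y []) (A.sub τ)) := by
    by_cases ha : lev (lv Y []) (A.sub τ) = k + 2
    · exact (ab (k + 2) (by omega) _ _ _ hA' ha).2
    · rw [sk_eq_hole ha]; exact .normal (normal_sort _)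
  rw [eB]
  unfold shape
  simp only [Tm.sub, sk, lev_typed hA', Nat.add_sub_cancel, if_pos hb]
  rw [← hlv, nf_pi sA sB]
  by_cases ha : r + 1 = k + 2
  · have hr : r = k + 1 := by omega
    subst hr
    have : nf (sk (k + 2) (lv Y []) (A.sub τ)) ≠ hole :=
      nf_ne_hole (.inr hA') ab (Nat.le_succ k)
    simp only [sh, isHole_false this, Bool.false_eq_true, if_false, if_true]
  · rw [if_neg ha, sk_eq_hole (show lev (lv Y []) (A.sub τ) ≠ k + 2 by rw [lev_typed hA']; exact ha),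
      nf_normal (normal_sort _)]
    simp only [sh, isHole, if_true]

/-- The values of the variables of level `k + 1` have the shapes of their types. -/
def RV (Y : Sys) (k : ℕ) : List (Tm ℕ) → (ℕ → Tm ℕ) → (ℕ → Val) → Prop
  | [], τ, ρ => ∀ i A, Y.g i = (A, k + 1) → (ρ i).1 = shape Y k τ A
  | A :: Γ, τ, ρ => RV Y k Γ (fun n => τ (n + 1)) (fun n => ρ (n + 1)) ∧
      (lev (lv Y Γ) A = k + 2 → (ρ 0).1 = shape Y k (fun n => τ (n + 1)) A)

theorem RV.cons {ρ : ℕ → Val} (h : RV Y k Γ τ ρ) {V : Tm ℕ} {v : Val}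
    (hv : lev (lv Y Γ) A = k + 2 → v.1 = shape Y k τ A) :
    RV Y k (A :: Γ) (Vale.Agent.P340.cons V τ) (Vale.Agent.P340.cons v ρ) :=
  ⟨h, hv⟩

/-- The shape of a value is the shape of its type. -/
theorem ev_shape (ab : Above Y k) (h2 : ¬ Y.R (k + 2) (k + 1)) (h : Y.T Γ M X) :
    ∀ (τ : ℕ → Tm ℕ) (ρ : ℕ → Val), Inst Y Γ τ → RV Y k Γ τ ρ →
      lev (lv Y Γ) M = k + 1 → (ev Y k τ ρ (lv Y Γ) M).1 = shape Y k τ X := by
  induction h with
  | ax _ => intros; rw [shape_sort]; rfl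
  | @gvar i A s he _ _ =>
    intro τ ρ _ hv hl
    refine hv i A (he.trans ?_)
    rw [← show (Y.g i).2 = k + 1 from hl, show (Y.g i).2 = s from congrArg Prod.snd he]
  | @var Γ A s hA _ =>
    intro τ ρ _ hv hl
    rw [lv_cons hA] at hl
    have hs : s = k + 1 := hl
    rw [shape, Tm.sub_ren]
    exact hv.2 (by rw [lev_typed hA, hs])
  | @weak Γ M B A s hM _ i1 _ =>
    intro τ ρ hs hv hl
    rw [lv, lev_succ] at hl
    rw [lv, ev_ren]
    refine (i1 _ _ hs.1 hv.1 hl).trans ?_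
    simp only [shape, Tm.sub_ren]
  | prod _ _ _ _ _ => intros; rw [shape_sort]; rfl
  | @abs Γ A B M r s hA hM hp _ i1 _ =>
    intro τ ρ hs hv hl
    have hl' : lev (lv Y (A :: Γ)) M = k + 1 := hl
    obtain ⟨r', hA', hB, hR⟩ := rule_pi hp
    cases uniq_sort hA hA'
    have es : s = k + 1 := (lev_eq hM (.inr hB)).symm.trans hl'
    subst es
    have hne : r ≠ k + 2 := fun e => h2 (e ▸ hR)
    obtain ⟨V, hV⟩ := fresh hA hs
    have hVr := lev_inst hA hs hV
    rw [shape_pi ab h2 hp hs (V := V) (by rw [hVr, lev_typed hA, Nat.add_sub_cancel])]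
    simp only [ev, lev_typed hA, Nat.add_sub_cancel]
    rw [← lv_cons hA]
    by_cases ha : r + 1 = k + 2
    · rw [if_pos ha, if_pos ha]
      simp only [lamV]
      rw [ev_high hA hl' hne hs (lev_junk Y r) hVr,
        i1 (cons V τ) _ ⟨hs, hV⟩ (hv.cons fun _ => rfl) hl']
    · rw [if_neg ha, if_neg ha]
      simp only [lamH]
      rw [ev_high hA hl' hne hs (lev_junk Y r) hVr,
        i1 (cons V τ) _ ⟨hs, hV⟩ (hv.cons fun e => absurd (lev_typed hA ▸ e) ha) hl']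
  | @app Γ A B M N hf ha i1 _ =>
    intro τ ρ hs hv hl
    have hl' : lev (lv Y Γ) M = k + 1 := hl
    have hp : Y.T Γ (.pi A B) (.sort (k + 1)) := hl' ▸ (key hf).pi
    obtain ⟨r, hA, -, -⟩ := rule_pi hp
    have hVr : lev (lv Y []) (N.sub τ) = lev (lv Y Γ) A - 1 := by
      rw [lev_sub N τ _ _ (hs.lev hA.wf), lev_type ha, Nat.add_sub_cancel]
    have e : (ev Y k τ ρ (lv Y Γ) (.app M N)).1 = cod (ev Y k τ ρ (lv Y Γ) M).1 := by
      simp only [ev]; split
      · exact appV_fst _ _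
      · exact appH_fst _ _
    rw [e, i1 τ ρ hs hv hl', shape_pi ab h2 hp hs hVr]
    have : shape Y k τ (B.sub (Tm.one N)) = shape Y k (cons (N.sub τ) τ) B := by
      simp only [shape, Tm.sub_sub]
      congr 4; funext n; cases n <;> rfl
    rw [this]
    split <;> rfl
  | @conv Γ M A B s hM hB he i1 _ =>
    intro τ ρ hs hv hl
    rw [i1 τ ρ hs hv hl]
    exact shape_conv ab (hl ▸ key hM) (hl ▸ key (H.conv hM hB he)) hs he

theorem lamH_congr {P P' : Tm ℕ → Prop} {V : Tm ℕ} {body body' : Tm ℕ → Val}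
    (hP : ∀ h, P h ↔ P' h) (h1 : (body V).1 = (body' V).1)
    (h2 : ∀ h, P h → body h = body' h) : lamH P V body = lamH P' V body' := by
  simp only [lamH]
  rw [h1]
  congr 1
  funext h
  by_cases hh : P h
  · rw [if_pos hh, if_pos ((hP h).1 hh), h2 h hh]
  · rw [if_neg hh, if_neg fun hh' => hh ((hP h).2 hh')]

theorem allH_congr {P P' : Tm ℕ → Prop} {body body' : Tm ℕ → Val}
    (hP : ∀ h, P h ↔ P' h) (h2 : ∀ h, P h → body h = body' h) :
    allH P body = allH P' body' := by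
  simp only [allH]
  congr 1
  funext h
  by_cases hh : P h
  · rw [if_pos hh, if_pos ((hP h).1 hh), h2 h hh]
  · rw [if_neg hh, if_neg fun hh' => hh ((hP h).2 hh')]

theorem inst_iff {A A' : Tm ℕ} (hA : Y.T [] A (.sort r)) (hA' : Y.T [] A' (.sort r))
    (hc : Conv A A') (V : Tm ℕ) : Y.T [] V A ↔ Y.T [] V A' :=
  ⟨fun h => .conv h hA' hc, fun h => .conv h hA hc.symm⟩

/-- Values respect reduction of the instances. -/
theorem ev_red (ab : Above Y k) (h2 : ¬ Y.R (k + 2) (k + 1)) : ∀ (M : Tm ℕ) {Γ : List (Tm ℕ)}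
    {X : Tm ℕ} {τ τ' : ℕ → Tm ℕ} (ρ : ℕ → Val), Y.T Γ M X → lev (lv Y Γ) M = k + 1 →
      Inst Y Γ τ → Inst Y Γ τ' → (∀ n, Red (τ n) (τ' n)) →
      ev Y k τ ρ (lv Y Γ) M = ev Y k τ' ρ (lv Y Γ) M := by
  have cred : ∀ {V : Tm ℕ} {τ τ' : ℕ → Tm ℕ}, (∀ n, Red (τ n) (τ' n)) →
      ∀ n, Red (cons V τ n) (cons V τ' n) := by
    intro V τ τ' h n; cases n with
    | zero => exact .refl
    | succ n => exact h n
  intro M
  induction M with
  | var n => intros; rfl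
  | sort s => intros; rfl
  | app f a i1 i2 =>
    intro Γ X τ τ' ρ h hl hs hs' hr
    obtain ⟨A, B, hf, ha, -, -, -, hR, -⟩ := rule_app h
    have hl' : lev (lv Y Γ) f = k + 1 := hl
    simp only [ev]
    split
    · rw [i1 ρ hf hl' hs hs' hr, i2 ρ ha ‹_› hs hs' hr]
    · have hle := Y.nd _ _ hR
      have hsn : SN (a.sub τ') :=
        (ab _ (by omega) [] _ _ (ha.sub hs') (lev_sub a τ' _ _ (hs'.lev h.wf))).1
      rw [i1 ρ hf hl' hs hs' hr, nf_red (red_sub hr) hsn]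
  | lam A M _ i2 =>
    intro Γ X τ τ' ρ h hl hs hs' hr
    obtain ⟨B, r, hA, hM, -, -, hR, -⟩ := rule_lam h
    have hl' : lev (lv Y (A :: Γ)) M = k + 1 := hl
    rw [hl'] at hR
    have hne : r ≠ k + 2 := fun e => h2 (e ▸ hR)
    have hA1 : Y.T [] (A.sub τ) (.sort r) := hA.sub hs
    have hA2 : Y.T [] (A.sub τ') (.sort r) := hA.sub hs'
    have hc : Conv (A.sub τ) (A.sub τ') := .of_red (red_sub hr)
    have body : ∀ V, Y.T [] V (A.sub τ) → ∀ ρ',
        ev Y k (cons V τ) ρ' (lv Y (A :: Γ)) M = ev Y k (cons V τ') ρ' (lv Y (A :: Γ)) M :=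
      fun V hV ρ' => i2 (Γ := A :: Γ) (X := B) ρ' hM hl' ⟨hs, hV⟩
        ⟨hs', (inst_iff hA1 hA2 hc V).1 hV⟩ (cred hr)
    obtain ⟨V, hV⟩ := fresh hA hs
    simp only [ev, lev_typed hA, Nat.add_sub_cancel]
    rw [← lv_cons hA]
    split
    · rename_i ha
      have es : shape Y k τ A = shape Y k τ' A := by
        have hr1 : r = k + 1 := by omega
        subst hr1
        exact congrArg sh (nf_sk_conv (.inr hA1) (.inr hA2) ab (Nat.le_succ k) hc)
      have low : ∀ v, ev Y k (cons (junk Y r) τ) (cons v ρ) (lv Y (A :: Γ)) M =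
          ev Y k (cons (junk Y r) τ') (cons v ρ) (lv Y (A :: Γ)) M := fun v => by
        rw [ev_low hA hM hl' (by omega) (junk Y r) V τ, body V hV,
          ev_low hA hM hl' (by omega) V (junk Y r) τ']
      simp only [es, low]
    · refine lamH_congr (inst_iff hA1 hA2 hc) ?_ fun h hh => body h hh _
      rw [ev_high hA hl' hne hs (lev_junk Y r) (lev_inst hA hs hV), body V hV,
        ev_high hA hl' hne hs' (lev_inst hA hs' ((inst_iff hA1 hA2 hc V).1 hV)) (lev_junk Y r)]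
  | pi A B i1 i2 =>
    intro Γ X τ τ' ρ h hl hs hs' hr
    obtain ⟨r, s, t, hA, hB, -, -⟩ := h.gen_pi
    have hl' : lev (lv Y (A :: Γ)) B = k + 1 := hl
    have hA1 : Y.T [] (A.sub τ) (.sort r) := hA.sub hs
    have hA2 : Y.T [] (A.sub τ') (.sort r) := hA.sub hs'
    have hc : Conv (A.sub τ) (A.sub τ') := .of_red (red_sub hr)
    have body : ∀ V, Y.T [] V (A.sub τ) → ∀ ρ',
        ev Y k (cons V τ) ρ' (lv Y (A :: Γ)) B = ev Y k (cons V τ') ρ' (lv Y (A :: Γ)) B :=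
      fun V hV ρ' => i2 (Γ := A :: Γ) (X := .sort s) ρ' hB hl' ⟨hs, hV⟩
        ⟨hs', (inst_iff hA1 hA2 hc V).1 hV⟩ (cred hr)
    obtain ⟨V, hV⟩ := fresh hA hs
    have low : r < k + 2 → ∀ v, ev Y k (cons (junk Y r) τ) (cons v ρ) (lv Y (A :: Γ)) B =
        ev Y k (cons (junk Y r) τ') (cons v ρ) (lv Y (A :: Γ)) B := fun hlt v => by
      rw [ev_low hA hB hl' hlt (junk Y r) V τ, body V hV,
        ev_low hA hB hl' hlt V (junk Y r) τ']
    simp only [ev]
    by_cases ha1 : lev (lv Y Γ) A = k + 1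
    · rw [if_pos ha1, if_pos ha1]
      have e := i1 ρ hA ha1 hs hs' hr
      rw [lev_typed hA, Nat.add_sub_cancel, ← lv_cons hA, e,
        low (by rw [lev_typed hA] at ha1; omega)]
    · rw [if_neg ha1, if_neg ha1]
      simp only [lev_typed hA, Nat.add_sub_cancel]
      rw [← lv_cons hA]
      split
      · rename_i ha
        have es : shape Y k τ A = shape Y k τ' A := by
          have hr1 : r = k + 1 := by omega
          subst hr1
          exact congrArg sh (nf_sk_conv (.inr hA1) (.inr hA2) ab (Nat.le_succ k) hc)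
        simp only [es, low (by omega : r < k + 2)]
      · rw [allH_congr (inst_iff hA1 hA2 hc) fun h hh => body h hh _]

end Tier

end Vale.Agent.P340
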